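import Crest.Agent.R140.Defs

/-!
# Row 140, task F: the stepping-up construction
-/

set_option autoImplicit false

open Finset

namespace Crest.Agent.R140

namespace CH

noncomputable section

open Classical

variable {L D : ℕ}

/-- rank in the lexicographic order -/
def rk (f : Fin (L + 1) → Fin (D + 1)) : ℕ :=
  (univ.filter (fun g : Fin (L + 1) → Fin (D + 1) => toLex g < toLex f)).card

theorem rk_lt {f g : Fin (L + 1) → Fin (D + 1)} (i : Fin (L + 1)) (h1 : ∀ j < i, f j = g j)
    (h2 : f i < g i) : rk f < rk g := by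
  have h : toLex f < toLex g := ⟨i, h1, h2⟩
  refine card_lt_card ⟨fun k hk => ?_, fun hs => ?_⟩
  · simp only [mem_filter, mem_univ, true_and] at hk ⊢
    exact hk.trans h
  · exact lt_irrefl _ (mem_filter.1 (hs (mem_filter.2 ⟨mem_univ f, h⟩))).2

def ps (L q : ℕ) : Fin (L + 1) := Fin.ofNat (L + 1) q

theorem ps_val {q : ℕ} (h : q ≤ L) : (ps L q).val = q := by
  simp [ps, Nat.mod_eq_of_lt (Nat.lt_succ_of_le h)]

def trunc (w : Fin (L + 1) → Fin (D + 1)) (p : ℕ) : Fin (L + 1) → Fin (D + 1) :=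
  fun Q => if Q.val < p then w Q else 0

theorem cmpA {w w' : Fin (L + 1) → Fin (D + 1)} {p q : ℕ} (hp : p ≤ L) (hpq : p < q)
    (hag : ∀ Q : Fin (L + 1), Q.val < p → w Q = w' Q) (h0 : w' (ps L p) ≠ 0) :
    rk (trunc w p) < rk (trunc w' q) := by
  refine rk_lt (ps L p) (fun j hj => ?_) ?_
  · have : j.val < p := by rw [← ps_val hp]; exact hj
    simp only [trunc, if_pos this, if_pos (this.trans hpq), hag j this]
  · simp only [trunc, ps_val hp, lt_irrefl, if_false, if_pos hpq]
    exact Fin.pos_iff_ne_zero.2 h0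

theorem cmpB {w w' : Fin (L + 1) → Fin (D + 1)} {s p q : ℕ} (hs : s ≤ L) (hp : s < p) (hq : s < q)
    (hag : ∀ Q : Fin (L + 1), Q.val < s → w Q = w' Q) (h0 : w (ps L s) < w' (ps L s)) :
    rk (trunc w p) < rk (trunc w' q) := by
  refine rk_lt (ps L s) (fun j hj => ?_) ?_
  · have : j.val < s := by rw [← ps_val hs]; exact hj
    simp only [trunc, if_pos (this.trans hp), if_pos (this.trans hq), hag j this]
  · simp only [trunc, ps_val hs, if_pos hp, if_pos hq]
    exact h0

/-- the gap position -/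
def gap (M : ℕ) (r : ℕ → ℕ → Prop) (x y : ℕ → ℕ) : ℕ :=
  max ((range M).sup fun a => if r a M then 2 * x a + 2 else 0)
    ((range M).sup fun b => if ¬ r M b then 2 * y b + 2 else 0)

theorem gap_le {M : ℕ} {r : ℕ → ℕ → Prop} {x y : ℕ → ℕ} {c : ℕ}
    (h1 : ∀ a < M, r a M → 2 * x a + 2 ≤ c) (h2 : ∀ b < M, ¬ r M b → 2 * y b + 2 ≤ c) :
    gap M r x y ≤ c := by
  refine max_le (Finset.sup_le fun a ha => ?_) (Finset.sup_le fun b hb => ?_)
  · split_ifs with h
    · exact h1 a (mem_range.1 ha) h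
    · exact Nat.zero_le _
  · split_ifs with h
    · exact Nat.zero_le _
    · exact h2 b (mem_range.1 hb) h

theorem le_gap_left {M : ℕ} {r : ℕ → ℕ → Prop} {x y : ℕ → ℕ} {a : ℕ} (ha : a < M) (h : r a M) :
    2 * x a + 2 ≤ gap M r x y := by
  refine le_trans ?_ (le_max_left _ _)
  refine le_trans (by rw [if_pos h]) (Finset.le_sup
    (f := fun a => if r a M then 2 * x a + 2 else 0) (mem_range.2 ha))

theorem le_gap_right {M : ℕ} {r : ℕ → ℕ → Prop} {x y : ℕ → ℕ} {b : ℕ} (hb : b < M)
    (h : ¬ r M b) : 2 * y b + 2 ≤ gap M r x y := by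
  refine le_trans ?_ (le_max_right _ _)
  refine le_trans (by rw [if_pos h]) (Finset.le_sup
    (f := fun b => if ¬ r M b then 2 * y b + 2 else 0) (mem_range.2 hb))

theorem gap_symm {M : ℕ} {r r' : ℕ → ℕ → Prop} (h : ∀ a b, r' b a ↔ ¬ r a b) (x y : ℕ → ℕ) :
    gap M r' y x = gap M r x y := by
  unfold gap
  rw [max_comm]
  congr 2
  · funext a; simp [h]
  · funext b; simp [h]

/-- the new sequence -/
def nx (M : ℕ) (x : ℕ → ℕ) (w : Fin (L + 1) → Fin (D + 1)) (a : ℕ) : ℕ :=
  rk (trunc w (if a < M then 2 * x a + 1 else L + 1))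

theorem nx_mono {M : ℕ} {x : ℕ → ℕ} {w : Fin (L + 1) → Fin (D + 1)}
    (hx : ∀ a b, a < b → b < M → x a < x b) (hL : ∀ a < M, 2 * x a + 2 ≤ L)
    (h0 : ∀ a < M, w (ps L (2 * x a + 1)) ≠ 0) (a b : ℕ) (hab : a < b) (hb : b < M + 1) :
    nx M x w a < nx M x w b := by
  have ha : a < M := by omega
  have h1 := hL a ha
  unfold nx
  rw [if_pos ha]
  refine cmpA (by omega) ?_ (fun _ _ => rfl) (h0 a ha)
  split_ifs with h
  · have := hx a b hab h; omega
  · omega

theorem good_step {M : ℕ} {r : ℕ → ℕ → Prop}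
    (hr : ∀ a a' b b', a' ≤ a → b ≤ b' → r a b → r a' b') {x y : ℕ → ℕ} (hg : Good M r x y)
    (hLx : ∀ a < M, 2 * x a + 2 ≤ L) (hLy : ∀ a < M, 2 * y a + 2 ≤ L)
    {w w' : Fin (L + 1) → Fin (D + 1)} (hag : ∀ Q, Q ≠ ps L (gap M r x y) → w Q = w' Q)
    (hx0 : ∀ a < M, w (ps L (2 * x a + 1)) ≠ 0) (hy0 : ∀ a < M, w' (ps L (2 * y a + 1)) ≠ 0)
    (hup : r M M → w (ps L (gap M r x y)) < w' (ps L (gap M r x y)))
    (hdn : ¬ r M M → w' (ps L (gap M r x y)) < w (ps L (gap M r x y))) :
    Good (M + 1) r (nx M x w) (nx M y w') := by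
  obtain ⟨g1, g2, g3⟩ := hg
  have hψ : gap M r x y ≤ L := gap_le (fun a ha _ => hLx a ha) (fun b hb _ => hLy b hb)
  have hag' : ∀ Q : Fin (L + 1), Q.val < gap M r x y → w Q = w' Q := fun Q hQ =>
    hag Q fun h => by rw [h, ps_val hψ] at hQ; exact lt_irrefl _ hQ
  refine ⟨nx_mono g1 hLx hx0, nx_mono g2 hLy hy0, fun a ha b hb => ⟨fun h => ?_, fun h => ?_⟩⟩
  · unfold nx
    by_cases haM : a < M
    · have h1 := le_gap_left (x := x) (y := y) haM (hr a a b M le_rfl (by omega) h)
      rw [if_pos haM]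
      refine cmpA (by omega) ?_ (fun Q hQ => hag' Q (by omega)) ?_
      · split_ifs with hbM
        · have := (g3 a haM b hbM).1 h; omega
        · omega
      · rw [← hag' _ (by rw [ps_val (by omega)]; omega)]
        exact hx0 a haM
    · obtain rfl : a = M := by omega
      rw [if_neg haM]
      refine cmpB hψ (by omega) ?_ hag' (hup (hr a a b a le_rfl (by omega) h))
      split_ifs with hbM
      · refine Nat.lt_succ_of_le (gap_le (fun a' ha' _ => ?_) (fun b' hb' h' => ?_))
        · have := (g3 a' ha' b hbM).1 (hr a a' b b ha'.le le_rfl h); omega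
        · have h2 : b' < b := by
            by_contra h3
            exact h' (hr a a b b' le_rfl (by omega) h)
          have := g2 b' b h2 hbM; omega
      · omega
  · unfold nx
    by_cases hbM : b < M
    · have h1 := le_gap_right (r := r) (x := x) (y := y) hbM
        (fun h' => h (hr M a b b (by omega) le_rfl h'))
      rw [if_pos hbM]
      refine cmpA (by omega) ?_ (fun Q hQ => (hag' Q (by omega)).symm) ?_
      · split_ifs with haM
        · have := (g3 a haM b hbM).2 h; omega
        · omega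
      · rw [hag' _ (by rw [ps_val (by omega)]; omega)]
        exact hy0 b hbM
    · obtain rfl : b = M := by omega
      rw [if_neg hbM]
      refine cmpB hψ (by omega) ?_ (fun Q hQ => (hag' Q hQ).symm)
        (hdn fun h' => h (hr b a b b (by omega) le_rfl h'))
      split_ifs with haM
      · refine Nat.lt_succ_of_le (gap_le (fun a' ha' h' => ?_) (fun b' hb' _ => ?_))
        · have h2 : a' < a := by
            by_contra h3
            exact h (hr a' a b b (by omega) le_rfl h')
          have := g1 a' a h2 haM; omega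
        · have := (g3 a haM b' hb').2 fun h' => h (hr a a b' b le_rfl hb'.le h'); omega
      · omega

theorem good_step' {M : ℕ} {r : ℕ → ℕ → Prop}
    (hr : ∀ a a' b b', a' ≤ a → b ≤ b' → r a b → r a' b') {x y : ℕ → ℕ} (hg : Good M r x y)
    (hLx : ∀ a < M, 2 * x a + 2 ≤ L) (hLy : ∀ a < M, 2 * y a + 2 ≤ L)
    (w : Fin (L + 1) → Fin (D + 1))
    (h1 : ∀ a < M, w (ps L (2 * x a + 1)) ≠ 0) (h2 : ∀ a < M, w (ps L (2 * y a + 1)) ≠ 0)
    (h3 : w (ps L (gap M r x y)) ≠ if r M M then Fin.last D else 0) :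
    Good (M + 1) r (nx M x w)
      (nx M y (w + Pi.single (ps L (gap M r x y)) (if r M M then 1 else -1))) := by
  have hψ : gap M r x y ≤ L := gap_le (fun a ha _ => hLx a ha) (fun b hb _ => hLy b hb)
  obtain ⟨w', hw'⟩ : ∃ w' : Fin (L + 1) → Fin (D + 1),
      w' = w + Pi.single (ps L (gap M r x y)) (if r M M then 1 else -1) := ⟨_, rfl⟩
  rw [← hw']
  have hag : ∀ Q, Q ≠ ps L (gap M r x y) → w Q = w' Q := fun Q hQ => by
    rw [hw', Pi.add_apply, Pi.single_eq_of_ne hQ, add_zero]
  have hat : w' (ps L (gap M r x y)) = w (ps L (gap M r x y)) + if r M M then 1 else -1 := by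
    rw [hw', Pi.add_apply, Pi.single_eq_same]
  refine good_step hr hg hLx hLy hag h1 (fun a ha => ?_) (fun h => ?_) (fun h => ?_)
  · rw [← hag]
    · exact h2 a ha
    · intro h
      have h4 := congrArg Fin.val h
      have h5 := hLy a ha
      rw [ps_val (by omega), ps_val hψ] at h4
      by_cases h6 : r M a
      · have h7 : gap M r x y ≤ 2 * y a := by
          refine gap_le (fun a' ha' _ => ?_) (fun b' hb' h' => ?_)
          · have := (hg.2.2 a' ha' a ha).1 (hr M a' a a ha'.le le_rfl h6); omega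
          · have h8 : b' < a := by
              by_contra h9
              exact h' (hr M M a b' le_rfl (by omega) h6)
            have := hg.2.1 b' a h8 ha; omega
        omega
      · have := le_gap_right (x := x) (y := y) ha h6
        omega
  · rw [hat]
    rw [if_pos h] at h3 ⊢
    exact Fin.lt_add_one_iff.2 (Fin.lt_last_iff_ne_last.2 h3)
  · rw [hat]
    rw [if_neg h] at h3 ⊢
    rw [← sub_eq_add_neg]
    exact Fin.sub_one_lt_iff.2 (Fin.pos_iff_ne_zero.2 h3)

theorem card_digit (Q : Fin (L + 1)) (c : Fin (D + 1)) :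
    (univ.filter (fun w : Fin (L + 1) → Fin (D + 1) => w Q = c)).card = (D + 1) ^ L := by
  have := Fintype.card_filter_piFinset_const_eq_of_mem (univ : Finset (Fin (D + 1))) Q (mem_univ c)
  simpa using this

theorem card_bad (M : ℕ) (p q : ℕ → Fin (L + 1)) (s : Fin (L + 1)) (c : Fin (D + 1)) :
    (univ.filter (fun w : Fin (L + 1) → Fin (D + 1) =>
      (∃ a < M, w (p a) = 0) ∨ (∃ a < M, w (q a) = 0) ∨ w s = c)).card ≤
      (2 * M + 1) * (D + 1) ^ L := by
  have h1 : ∀ p : ℕ → Fin (L + 1), (univ.filter (fun w : Fin (L + 1) → Fin (D + 1) =>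
      ∃ a < M, w (p a) = 0)).card ≤ M * (D + 1) ^ L := by
    intro p
    have : univ.filter (fun w : Fin (L + 1) → Fin (D + 1) => ∃ a < M, w (p a) = 0) ⊆
        (range M).biUnion fun a => univ.filter (fun w => w (p a) = 0) := by
      intro w hw
      simpa using hw
    refine (card_le_card this).trans (card_biUnion_le.trans ?_)
    simp only [card_digit, sum_const, card_range, smul_eq_mul, le_refl]
  rw [filter_or, filter_or]
  refine (card_union_le _ _).trans ?_
  have h2 := card_union_le (univ.filter (fun w : Fin (L + 1) → Fin (D + 1) => ∃ a < M, w (q a) = 0))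
    (univ.filter (fun w : Fin (L + 1) → Fin (D + 1) => w s = c))
  have h3 := h1 p
  have h4 := h1 q
  rw [card_digit] at h2
  nlinarith

end

end CH

open Classical in
theorem chainEx : ChainEx := by
  intro P _ ι r hι hr hmono M
  induction M with
  | zero =>
    intro η hη
    refine ⟨Unit, inferInstance, inferInstance, fun _ _ => 0, fun _ => 1, fun _ => by simp,
      fun π => ?_⟩
    have : univ.filter (fun ω : Unit => ¬ Good 0 (r π) (fun _ => 0) (fun _ => 0)) = ∅ := by
      refine filter_eq_empty_iff.2 fun _ _ => ?_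
      simp [Good]
    simp only [this, card_empty, Nat.cast_zero]
    positivity
  | succ M ih =>
    intro η hη
    obtain ⟨Ω, _, _, x, T, hT, hbad⟩ := ih (η / 2) (by positivity)
    obtain ⟨D, hD⟩ := exists_nat_ge ((2 * M + 1) / (η / 2))
    obtain ⟨L, hL⟩ : ∃ L, ∀ ω, ∀ a < M, 2 * x ω a + 2 ≤ L :=
      ⟨(univ ×ˢ range M).sup fun z : Ω × ℕ => 2 * x z.1 z.2 + 2, fun ω a ha =>
        Finset.le_sup (f := fun z : Ω × ℕ => 2 * x z.1 z.2 + 2) (b := (ω, a))
          (mem_product.2 ⟨mem_univ _, mem_range.2 ha⟩)⟩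
    let W := Fin (L + 1) → Fin (D + 1)
    let ψ : P → Ω → Fin (L + 1) := fun π ω => CH.ps L (CH.gap M (r π) (x ω) (x (T π ω)))
    let ε : P → Fin (D + 1) := fun π => if r π M M then 1 else -1
    let F : P → Ω × W → Ω × W := fun π z => (T π z.1, z.2 + Pi.single (ψ π z.1) (ε π))
    have hF : ∀ π z, F (ι π) (F π z) = z := by
      intro π z
      have h1 : T (ι π) (T π z.1) = z.1 := by rw [hT]; simp
      have h2 : ψ (ι π) (T π z.1) = ψ π z.1 := by
        simp only [ψ, h1]
        rw [CH.gap_symm (hr π)]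
      have h3 : ε (ι π) = -ε π := by
        simp only [ε, hr]
        by_cases h : r π M M <;> simp [h]
      refine Prod.ext h1 ?_
      simp only [F, h2, h3]
      rw [add_assoc, ← Pi.single_add, add_neg_cancel, Pi.single_zero, add_zero]
    let T' : P → Equiv.Perm (Ω × W) := fun π =>
      ⟨F π, F (ι π), hF π, fun z => by simpa [hι] using hF (ι π) z⟩
    refine ⟨Ω × W, inferInstance, inferInstance, fun z => CH.nx M (x z.1) z.2, T', fun π => ?_,
      fun π => ?_⟩
    · ext1 z; rfl
    let c : Fin (D + 1) := if r π M M then Fin.last D else 0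
    have hsub : univ.filter (fun z : Ω × W => ¬ Good (M + 1) (r π) (CH.nx M (x z.1) z.2)
          (CH.nx M (x (T' π z).1) (T' π z).2)) ⊆
        (univ.filter (fun ω => ¬ Good M (r π) (x ω) (x (T π ω))) ×ˢ univ) ∪
          univ.biUnion fun ω => ({ω} : Finset Ω) ×ˢ univ.filter (fun w : W =>
            (∃ a < M, w (CH.ps L (2 * x ω a + 1)) = 0) ∨
            (∃ a < M, w (CH.ps L (2 * x (T π ω) a + 1)) = 0) ∨ w (ψ π ω) = c) := by
      rintro ⟨ω, w⟩ hz
      by_contra hn
      simp only [mem_union, mem_product, mem_filter, mem_univ, true_and, and_true, mem_biUnion,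
        mem_singleton, exists_eq_left', not_or, not_not, not_exists, not_and] at hn
      obtain ⟨hg, h1, h2, h3⟩ := hn
      refine (mem_filter.1 hz).2 ?_
      exact CH.good_step' (hmono π) hg (hL ω) (hL (T π ω)) w h1 h2 h3
    have h1 := (card_le_card hsub).trans (card_union_le _ _)
    have h2 : (univ.biUnion fun ω => ({ω} : Finset Ω) ×ˢ univ.filter (fun w : W =>
            (∃ a < M, w (CH.ps L (2 * x ω a + 1)) = 0) ∨
            (∃ a < M, w (CH.ps L (2 * x (T π ω) a + 1)) = 0) ∨ w (ψ π ω) = c)).card ≤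
        Fintype.card Ω * ((2 * M + 1) * (D + 1) ^ L) := by
      refine card_biUnion_le.trans ((sum_le_card_nsmul _ _ ((2 * M + 1) * (D + 1) ^ L)
        fun ω _ => ?_).trans (by simp))
      rw [card_product, card_singleton, one_mul]
      exact CH.card_bad M (fun a => CH.ps L (2 * x ω a + 1))
        (fun a => CH.ps L (2 * x (T π ω) a + 1)) _ c
    have hW : Fintype.card W = (D + 1) ^ (L + 1) := by simp [W]
    rw [card_product, card_univ, hW] at h1
    have h3 := (Nat.cast_le (α := ℝ)).2 (h1.trans (Nat.add_le_add_left h2 _))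
    refine le_trans (by convert h3) ?_
    rw [Fintype.card_prod, hW]
    push_cast
    have h4 := hbad π
    have h5 : (2 * M + 1 : ℝ) ≤ η / 2 * (D + 1) := by
      rw [div_le_iff₀ (by positivity)] at hD
      nlinarith
    have h6 : (0 : ℝ) ≤ (D + 1 : ℝ) ^ L := by positivity
    have h7 : (0 : ℝ) ≤ Fintype.card Ω := by positivity
    calc _ ≤ η / 2 * Fintype.card Ω * (D + 1 : ℝ) ^ (L + 1) +
          Fintype.card Ω * (η / 2 * (D + 1) * (D + 1 : ℝ) ^ L) := by gcongr
      _ = _ := by ring

end Crest.Agent.R140
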