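import Crest.Agent.R140.Defs

set_option autoImplicit false

open Finset Filter Topology Function

namespace Crest.Agent.R140

namespace CV

open Classical

def it {P S : Type} (mv : P → S → S) (π : ℕ → P) (z : S) (s : ℕ) : S :=
  Nat.rec z (fun s z' => mv (π s) z') s

theorem it_congr {P S : Type} (mv : P → S → S) (π π' : ℕ → P) (z : S) (s : ℕ)
    (h : ∀ r < s, π r = π' r) : it mv π z s = it mv π' z s := by
  induction s with
  | zero => rfl
  | succ s ih =>
    show mv (π s) (it mv π z s) = mv (π' s) (it mv π' z s)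
    rw [ih (fun r hr => h r (by omega)), h s (by omega)]

noncomputable def Pm {P S : Type} [Fintype P] (mv : P → S → S) : Matrix S S ℝ :=
  fun z z' => (∑ π, if mv π z = z' then (1 : ℝ) else 0) / Fintype.card P

theorem Pm_sum {P S : Type} [Fintype P] [Fintype S] (mv : P → S → S) (z : S) (F : S → ℝ) :
    ∑ z', Pm mv z z' * F z' = (∑ π, F (mv π z)) / Fintype.card P := by
  unfold Pm
  simp only [div_mul_eq_mul_div, ← sum_div, sum_mul]
  rw [sum_comm]
  simp

theorem Pm_pow {P S : Type} [Fintype P] [Fintype S] [DecidableEq S] (π0 : P) (mv : P → S → S)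
    (z : S) (t : ℕ) : ∀ F : S → ℝ, ∑ z', (Pm mv ^ t) z z' * F z' =
      (∑ π : Fin t → P, F (it mv (ext π0 π) z t)) / (Fintype.card P : ℝ) ^ t := by
  induction t with
  | zero => intro F; simp [Matrix.one_apply, it]
  | succ t ih =>
    intro F
    simp only [pow_succ, Matrix.mul_apply, sum_mul]
    rw [sum_comm]
    simp only [mul_assoc, ← mul_sum, Pm_sum]
    rw [ih, ← sum_div, div_div, mul_comm (Fintype.card P : ℝ)]
    congr 1
    rw [← (Fin.snocEquiv (fun _ : Fin (t + 1) => P)).sum_comp, Fintype.sum_prod_type]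
    conv_rhs => rw [sum_comm]
    refine sum_congr rfl fun π _ => sum_congr rfl fun q _ => ?_
    congr 1
    show mv q _ = mv _ _
    congr 1
    · simp only [ext, Nat.lt_succ_self, dif_pos]
      exact (Fin.snoc_last (α := fun _ => P) q π).symm
    · refine it_congr _ _ _ _ _ fun r hr => ?_
      simp only [ext, dif_pos hr, dif_pos (Nat.lt_succ_of_lt hr)]
      exact (Fin.snoc_castSucc (α := fun _ => P) q π ⟨r, hr⟩).symm

noncomputable def emb (n : ℕ) : (Fin n → ℤ) →+ C00 where
  toFun g := ∑ j : Fin n, Finsupp.single (j : ℕ) (g j : ℝ)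
  map_zero' := by simp
  map_add' g g' := by simp [Finsupp.single_add, sum_add_distrib]

theorem emb_eq (n : ℕ) (a : ℕ →₀ ℤ) (h : ∀ j, n ≤ j → a j = 0) :
    emb n (fun j => a j) = toR a := by
  ext k
  simp only [emb, AddMonoidHom.coe_mk, ZeroHom.coe_mk, Finsupp.finsetSum_apply,
    Finsupp.single_apply, toR, Finsupp.mapRange.addMonoidHom_apply, Finsupp.mapRange_apply]
  by_cases hk : k < n
  · rw [sum_eq_single ⟨k, hk⟩]
    · simp
    · intro j _ hj
      rw [if_neg (fun h' => hj (Fin.ext h'))]
    · simp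
  · rw [h k (by omega), sum_eq_zero]
    · simp
    · intro j _
      have := j.2
      rw [if_neg (by omega)]

theorem lim {X Y : ℝ} (n c : ℕ) (h : ∀ m : ℕ, ((m : ℝ) + 1) ^ n * X ≤ ((m : ℝ) + 1 + c) ^ n * Y) :
    X ≤ Y := by
  have h1 : Tendsto (fun m : ℕ => (1 + (c : ℝ) * (1 / ((m : ℝ) + 1))) ^ n * Y) atTop
      (𝓝 ((1 + (c : ℝ) * 0) ^ n * Y)) :=
    (((tendsto_one_div_add_atTop_nhds_zero_nat.const_mul _).const_add _).pow _).mul_const _
  simp only [mul_zero, add_zero, one_pow, one_mul] at h1
  refine ge_of_tendsto' h1 fun m => ?_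
  have hm : (0 : ℝ) < (m : ℝ) + 1 := by positivity
  have e : 1 + (c : ℝ) * (1 / ((m : ℝ) + 1)) = ((m : ℝ) + 1 + c) / ((m : ℝ) + 1) := by field_simp
  rw [e, div_pow, div_mul_eq_mul_div, le_div_iff₀ (by positivity), mul_comm]
  exact h m

end CV

open CV Classical in
theorem cover : Cover := by
  intro A p K hp hK hMT P Ω _ _ π0 ι T y hι hT hy t ht
  rcases isEmpty_or_nonempty Ω with hΩ | hΩ
  · simp
  have hPn : Nonempty P := ⟨π0⟩
  have hPc : (0 : ℝ) < Fintype.card P := by exact_mod_cast Fintype.card_pos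
  obtain ⟨n, hn⟩ : ∃ n : ℕ, ∀ π ω j, n ≤ j → y π ω j = 0 := by
    refine ⟨(univ : Finset (P × Ω)).sup (fun z => (y z.1 z.2).support.sup id) + 1,
      fun π ω j hj => ?_⟩
    by_contra h
    have h1 : j ≤ (y π ω).support.sup id := le_sup (f := id) (Finsupp.mem_support_iff.2 h)
    have h2 := le_sup (f := fun z : P × Ω => (y z.1 z.2).support.sup id) (mem_univ (π, ω))
    simp only at h2
    omega
  obtain ⟨B, hB⟩ : ∃ B : ℕ, ∀ π ω (j : Fin n), |y π ω j| ≤ B := by
    refine ⟨(univ : Finset (P × Ω × Fin n)).sup (fun z => (y z.1 z.2.1 z.2.2).natAbs),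
      fun π ω j => ?_⟩
    have := le_sup (f := fun z : P × Ω × Fin n => (y z.1 z.2.1 z.2.2).natAbs) (mem_univ (π, ω, j))
    rw [Int.abs_eq_natAbs]
    exact_mod_cast this
  refine lim n (2 * t * B) fun m => ?_
  set L : ℕ := m + 2 * t * B with hL
  let yv : P → Ω → Fin n → ℤ := fun π ω j => y π ω j
  let Box : Finset (Fin n → ℤ) := Fintype.piFinset fun _ => Icc (0 : ℤ) L
  let Inn : Finset (Fin n → ℤ) := Fintype.piFinset fun _ => Icc ((t * B : ℕ) : ℤ) ((m + t * B : ℕ) : ℤ)
  have cBox : (Box.card : ℝ) = ((m : ℝ) + 1 + (2 * t * B : ℕ)) ^ n := by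
    simp only [Box, Fintype.card_piFinset, Int.card_Icc, prod_const, card_univ, Fintype.card_fin]
    rw [show ((L : ℤ) + 1 - 0).toNat = m + 1 + 2 * t * B by omega]
    push_cast; ring
  have cInn : (Inn.card : ℝ) = ((m : ℝ) + 1) ^ n := by
    simp only [Inn, Fintype.card_piFinset, Int.card_Icc, prod_const, card_univ, Fintype.card_fin]
    rw [show (((m + t * B : ℕ) : ℤ) + 1 - ((t * B : ℕ) : ℤ)).toNat = m + 1 by omega]
    push_cast; ring
  have h0 : (0 : Fin n → ℤ) ∈ Box := by simp [Box]
  have : Nonempty Box := ⟨⟨0, h0⟩⟩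
  let mv : P → Ω × Box → Ω × Box := fun π z =>
    if h : z.2.1 + yv π z.1 ∈ Box then (T π z.1, ⟨_, h⟩) else z
  have hback : ∀ π z z', z ≠ z' → mv π z = z' → mv (ι π) z' = z := by
    intro π z z' hne h
    simp only [mv] at h
    split_ifs at h with h1
    · subst h
      have e : z.2.1 + yv π z.1 + yv (ι π) (T π z.1) = z.2.1 := by
        funext j; simp [yv, hy]
      simp only [mv]
      rw [dif_pos (by rw [e]; exact z.2.2)]
      exact Prod.ext (by simp [hT]) (Subtype.ext e)
    · exact absurd h hne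
  have hsym : ∀ z z', Pm mv z z' = Pm mv z' z := by
    intro z z'
    by_cases hne : z = z'
    · rw [hne]
    unfold Pm
    congr 1
    refine Fintype.sum_equiv (Function.Involutive.toPerm ι hι) _ _ fun π => ?_
    have key : mv π z = z' ↔ mv (ι π) z' = z := by
      refine ⟨hback π z z' hne, fun h => ?_⟩
      have := hback _ _ _ (Ne.symm hne) h
      rwa [hι] at this
    by_cases h : mv π z = z'
    · rw [if_pos h, if_pos (show mv (Function.Involutive.toPerm ι hι π) z' = z from key.1 h)]
    · rw [if_neg h, if_neg (show ¬ mv (Function.Involutive.toPerm ι hι π) z' = z from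
        fun h' => h (key.2 h'))]
  set N : ℝ := (Fintype.card (Ω × Box) : ℝ) with hN
  have hN0 : 0 < N := by rw [hN]; exact_mod_cast Fintype.card_pos
  have main := hMT (Ω × Box) (fun _ => 1 / N) (Pm mv) (fun _ => by positivity)
    (by rw [sum_const, card_univ, nsmul_eq_mul, ← hN]; field_simp)
    (fun z z' => div_nonneg (sum_nonneg fun π _ => by split_ifs <;> norm_num) hPc.le)
    (fun z => by
      have := Pm_sum mv z (fun _ => 1)
      simp only [mul_one, sum_const, card_univ, nsmul_eq_mul] at this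
      rw [this, div_self hPc.ne'])
    (fun z z' => by rw [hsym]) (fun z => emb n z.2.1) t ht
  simp only [mul_assoc (1 / N), ← mul_sum] at main
  rw [mul_left_comm] at main
  replace main := le_of_mul_le_mul_left main (by positivity)
  simp only [Pm_pow π0, Pm_sum] at main
  have hKp : 0 ≤ K ^ p * t := by have := Real.rpow_pos_of_pos hK p; positivity
  have up : ∑ z : Ω × Box, (∑ π, A (emb n (mv π z).2.1 - emb n z.2.1) ^ p) / Fintype.card P ≤
      Box.card * ((∑ ω, ∑ π, A (toR (y π ω)) ^ p) / Fintype.card P) := by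
    rw [← sum_div, ← mul_div_assoc]
    refine div_le_div_of_nonneg_right ?_ hPc.le
    rw [Fintype.sum_prod_type, mul_sum]
    refine sum_le_sum fun ω _ => ?_
    calc ∑ g : Box, ∑ π, A (emb n (mv π (ω, g)).2.1 - emb n g.1) ^ p
        ≤ ∑ _g : Box, ∑ π, A (toR (y π ω)) ^ p := by
          refine sum_le_sum fun g _ => sum_le_sum fun π _ => ?_
          simp only [mv]
          split_ifs with h
          · simp only [map_add, add_sub_cancel_left]
            rw [emb_eq n _ (hn π ω)]
          · rw [sub_self, map_zero, Real.zero_rpow (by linarith)]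
            exact Real.rpow_nonneg (apply_nonneg _ _) _
      _ = _ := by rw [sum_const, card_univ, Fintype.card_coe, nsmul_eq_mul]
  have path : ∀ (π : ℕ → P) ω (g : Box), g.1 ∈ Inn → ∀ s, s ≤ t →
      (it mv π (ω, g) s).1 = walk T π ω s ∧
      (it mv π (ω, g) s).2.1 = g.1 + ∑ r ∈ range s, yv (π r) (walk T π ω r) ∧
      ∀ j, |(∑ r ∈ range s, yv (π r) (walk T π ω r)) j| ≤ s * B := by
    intro π ω g hg s
    induction s with
    | zero => intro _; exact ⟨rfl, by simp [it], by simp⟩
    | succ s ih =>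
      intro hs
      obtain ⟨i1, i2, i3⟩ := ih (by omega)
      have i4 : ∀ j, |(∑ r ∈ range (s + 1), yv (π r) (walk T π ω r)) j| ≤ (s + 1 : ℕ) * B := by
        intro j
        rw [sum_range_succ, Pi.add_apply]
        refine (abs_add_le _ _).trans ?_
        have := hB (π s) (walk T π ω s) j
        have := i3 j
        simp only [yv] at *
        push_cast
        linarith
      have hmem : (it mv π (ω, g) s).2.1 + yv (π s) (it mv π (ω, g) s).1 ∈ Box := by
        rw [i1, i2, add_assoc, ← sum_range_succ (fun r => yv (π r) (walk T π ω r))]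
        refine Fintype.mem_piFinset.2 fun j => ?_
        have a1 := mem_Icc.1 (Fintype.mem_piFinset.1 hg j)
        have a2 := abs_le.1 (i4 j)
        have a3 : ((s + 1 : ℕ) : ℤ) * B ≤ t * B :=
          mul_le_mul_of_nonneg_right (by exact_mod_cast hs) (by positivity)
        rw [Pi.add_apply, mem_Icc, hL]
        push_cast at *
        constructor <;> linarith
      have e : it mv π (ω, g) (s + 1) = (T (π s) (it mv π (ω, g) s).1, ⟨_, hmem⟩) := dif_pos hmem
      refine ⟨by rw [e]; exact congrArg (T (π s)) i1, ?_, i4⟩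
      rw [e]
      simp only
      rw [i1, i2, add_assoc, ← sum_range_succ (fun r => yv (π r) (walk T π ω r))]
  have low : Inn.card * ((∑ ω, ∑ π : Fin t → P,
          A (toR (∑ s ∈ range t, y (ext π0 π s) (walk T (ext π0 π) ω s))) ^ p) /
            (Fintype.card P : ℝ) ^ t) ≤
      ∑ z : Ω × Box, (∑ π : Fin t → P,
        A (emb n (it mv (ext π0 π) z t).2.1 - emb n z.2.1) ^ p) / (Fintype.card P : ℝ) ^ t := by
    rw [← sum_div, ← mul_div_assoc]
    refine div_le_div_of_nonneg_right ?_ (by positivity)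
    rw [Fintype.sum_prod_type, mul_sum]
    refine sum_le_sum fun ω _ => ?_
    have hsub : Inn ⊆ Box := fun g hg => Fintype.mem_piFinset.2 fun j => by
      have a1 := mem_Icc.1 (Fintype.mem_piFinset.1 hg j)
      have a2 : (0 : ℤ) ≤ t * B := by positivity
      rw [mem_Icc, hL]
      push_cast at *
      constructor <;> linarith
    have hc : ((univ : Finset Box).filter (fun g => g.1 ∈ Inn)).card = Inn.card := by
      refine card_bij (fun g _ => g.1) (fun g hg => (mem_filter.1 hg).2)
        (fun _ _ _ _ h => Subtype.ext h) (fun g hg => ⟨⟨g, hsub hg⟩, by simpa using hg, rfl⟩)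
    rw [← hc, ← nsmul_eq_mul, ← sum_const]
    refine le_trans (le_of_eq (sum_congr rfl fun g hg => sum_congr rfl fun π _ => ?_))
      (sum_le_sum_of_subset_of_nonneg (filter_subset _ _) fun g _ _ =>
        sum_nonneg fun π _ => Real.rpow_nonneg (apply_nonneg _ _) _)
    rw [(path (ext π0 π) ω g (mem_filter.1 hg).2 t le_rfl).2.1, map_add, add_sub_cancel_left,
      map_sum toR, map_sum (emb n)]
    congr 2
    exact sum_congr rfl fun s _ => (emb_eq n _ (hn _ _)).symm
  rw [← cInn, ← cBox, mul_left_comm]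
  exact low.trans (main.trans (mul_le_mul_of_nonneg_left up hKp))

end Crest.Agent.R140
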