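import Mathlib
import Crest.Prelude.Def_MarkovType

/-!
# Row 140 (S0191): Markov type `p > 1` implies an equivalent uniformly convex norm

Plan.  If the midpoint derivation `Der ε n` of the unit ball never dies, martingales give
James-type seminorms on `ℕ →₀ ℝ` with the same Markov type (`MartS`); ultralimits and block
averages make them invariant under spreading and non-increasing under merging (`Lim1`, `Lim2`,
`Lim3`); an Erdős–Hajnal stepping-up construction (`ChainEx`) gives a reversible chain on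
increasing sequences whose edges interleave in blocks, and the edge labels add up ballistically
(`PathOsc`, `Osc`, `Cover`), contradicting Markov type.  If the derivation always dies, `Renorm`
gives the norm.  Every task is a `Prop`; prove it in your own file importing only this one.
-/

set_option autoImplicit false

open Finset Filter Topology Function

namespace Crest.Agent.R140

noncomputable section

open Classical

/-- Markov type for a function `N` on an additive group (for `N = norm` this is `HasMarkovType`) -/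
def MT {V : Type*} [AddCommGroup V] (N : V → ℝ) (p K : ℝ) : Prop :=
  ∀ (S : Type) [Fintype S] [DecidableEq S] (w : S → ℝ) (P : Matrix S S ℝ),
    (∀ i, 0 ≤ w i) → ∑ i, w i = 1 → (∀ i j, 0 ≤ P i j) → (∀ i, ∑ j, P i j = 1) →
    (∀ i j, w i * P i j = w j * P j i) →
    ∀ (f : S → V) (t : ℕ), 1 ≤ t →
      ∑ i, ∑ j, w i * (P ^ t) i j * N (f j - f i) ^ p ≤
        K ^ p * t * ∑ i, ∑ j, w i * P i j * N (f j - f i) ^ p

/-- midpoint derivation of the unit ball -/
def Der (X : Type*) [NormedAddCommGroup X] [NormedSpace ℝ X] (ε : ℝ) (n : ℕ) : Set X :=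
  Nat.rec (Metric.closedBall 0 1)
    (fun _ A => convexHull ℝ {z | ∃ x ∈ A, ∃ y ∈ A, ε ≤ ‖x - y‖ ∧ z = (1 / 2 : ℝ) • (x + y)}) n

theorem Der_zero (X : Type*) [NormedAddCommGroup X] [NormedSpace ℝ X] (ε : ℝ) :
    Der X ε 0 = Metric.closedBall 0 1 := rfl

theorem Der_succ (X : Type*) [NormedAddCommGroup X] [NormedSpace ℝ X] (ε : ℝ) (n : ℕ) :
    Der X ε (n + 1) = convexHull ℝ
      {z | ∃ x ∈ Der X ε n, ∃ y ∈ Der X ε n, ε ≤ ‖x - y‖ ∧ z = (1 / 2 : ℝ) • (x + y)} := rfl

/-- **Renorming** (Lancien style).  Each `Der ε n` is convex, symmetric, inside the ball; a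
nonempty one contains `0`.  Let `n k` be the least `n` with `Der (1/2^k) n = ∅` (`n k ≥ 1`),
`d k j x = infDist x (Der (1/2^k) j)` (`j < n k`; convex, even, 1-Lipschitz, `≤ ‖x‖`),
`F x = ‖x‖² + ∑' k, (1 / (2^(k+1) n k)) ∑_{j < n k} (d k j x)²`: convex, even, `‖x‖² ≤ F ≤ 2‖x‖²`,
Lipschitz on bounded sets.  Defect `(F x + F y)/2 - F m` (`m` the midpoint) dominates each weighted
`(d x² + d y²)/2 - d m²`.  For `‖x‖, ‖y‖ ≤ 1`, `‖x - y‖ ≥ 2/2^k`, small defect gives by induction
on `j` that `d k j x, d k j y ≤ η_j < 1/2^(k+1)` (approximate by `x', y' ∈ Der j`, whose midpoint is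
in `Der (j+1)`), and at `j = n k - 1` that `Der (n k) ≠ ∅`: contradiction, so defect `≥ γ k > 0`.
`N = gaugeSeminorm {F ≤ 1}` (or define `N x = inf {s > 0 | F (x / s) ≤ 1}`); if `N x, N y ≤ 1` and
`ε ≤ N (x - y) ≤ √2 ‖x - y‖` then `F m ≤ 1 - γ`, so `F ((1+η) m) ≤ 1` and `N m ≤ 1/(1+η)`. -/
def Renorm (X : Type*) [NormedAddCommGroup X] [NormedSpace ℝ X] : Prop :=
  (∀ ε : ℝ, 0 < ε → ∃ n, Der X ε n = ∅) → Crest.AnalysisR.HasEquivUniformlyConvexNorm X

abbrev C00 := ℕ →₀ ℝ

/-- sum of the coordinates `≥ k` -/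
def tl (k : ℕ) (a : C00) : ℝ := ∑ j ∈ a.support.filter (fun j => k ≤ j), a j

/-- sum of the coordinates `≤ z` -/
def cum (z : ℕ) (a : C00) : ℝ := ∑ j ∈ a.support.filter (fun j => j ≤ z), a j

def JamesN (N : Seminorm ℝ C00) (θ : ℝ) (n : ℕ) : Prop :=
  (∀ j, N (Finsupp.single j 1) ≤ 1) ∧
    ∀ a : C00, (∀ j ∈ a.support, j < n) → ∀ k, θ * |tl k a| ≤ N a

def James (N : Seminorm ℝ C00) (θ : ℝ) : Prop :=
  (∀ j, N (Finsupp.single j 1) ≤ 1) ∧ ∀ (a : C00) (k : ℕ), θ * |tl k a| ≤ N a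

/-- **Martingales.**  Let `G n` be the set of `z` having `μ : (ℕ → X) →₀ ℝ`, `μ ≥ 0`, mass `1`,
`‖ω j‖ ≤ 1` on the support, barycentre `∑ μ ω • ω j = z` for `j < n`, and for all `v : X`,
`a : ℕ → ℝ`, `k`: `ε/2 * |∑_{k ≤ j < n} a j| ≤ ∑ μ ω * ‖v + ∑_{j<n} a j • ω j‖`.  `G n` is convex (mix
the measures), and `Der ε n ⊆ G n` by induction: for `x, y ∈ G n ∩ ball`, `‖x - y‖ ≥ ε`, mix the images
of `μ_x`, `μ_y` under `ω ↦ cons x ω`, `cons y ω`; for `k = 0` use the barycentres (Jensen) and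
`‖v + s x‖ + ‖v + s y‖ ≥ |s| ε`; for `k ≥ 1` the hypothesis with `v + a 0 • x`.
Then `N a = (∑ μ ω ‖∑_j a j • ω j‖^p)^(1/p)` (norm of `PiLp` composed with a linear map, or
`Real.Lp_add_le`); `L_p ≥ L_1`; Markov type: apply it for each `ω` and average the `p`-th powers. -/
def MartS (X : Type*) [NormedAddCommGroup X] [NormedSpace ℝ X] : Prop :=
  ∀ p K ε : ℝ, 1 < p → 0 < ε → MT (fun x : X => ‖x‖) p K → ∀ n, (Der X ε n).Nonempty →
    ∃ N : Seminorm ℝ C00, MT N p K ∧ JamesN N (ε / 2) n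

/-- Ultralimit along `hyperfilter ℕ` (`N n a ≤ ∑ |a j|` is bounded); Markov type is a closed
condition. -/
def Lim1 : Prop :=
  ∀ p K θ : ℝ, 1 < p → (∀ n, ∃ N : Seminorm ℝ C00, MT N p K ∧ JamesN N θ n) →
    ∃ N : Seminorm ℝ C00, MT N p K ∧ James N θ

/-- invariance under spreading -/
def Spread (N : Seminorm ℝ C00) : Prop :=
  ∀ σ : ℕ → ℕ, StrictMono σ → ∀ a : C00, N (Finsupp.mapDomain σ a) = N a

/-- **Spreading model** by iterated ultralimits.  `U = hyperfilter ℕ`; `S [] v = N v`,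
`S (c :: l) v = lim_{j → U} S l (v + single j c)`; a zero entry does not change `S`, so
`N' a = S [a 0, …, a (m-1)] 0` (any `m` beyond the support) is spreading invariant.  With the
ultrafilter `U_m` on lists (`U_0 = pure []`, `U_{m+1} = U.bind fun j => U_m.map (j :: ·)`),
`N (v + ∑ single (js i) (c i)) → S c v` along `U_m`, and `js` is `U_m`-eventually strictly increasing
of length `m`; hence `N'` is a seminorm, has Markov type (take `m` beyond all supports; `N ∘ mapDomain js`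
has Markov type), and keeps `James` (`tl (js k)` of the spread vector is `tl k a`). -/
def Lim2 : Prop :=
  ∀ p K θ : ℝ, 1 < p → (∃ N : Seminorm ℝ C00, MT N p K ∧ James N θ) →
    ∃ N : Seminorm ℝ C00, MT N p K ∧ James N θ ∧ Spread N

/-- merging coordinates along a monotone map does not increase the seminorm -/
def Merge (A : Seminorm ℝ C00) : Prop :=
  ∀ μ : ℕ → ℕ, Monotone μ → ∀ a : C00, A (Finsupp.mapDomain μ a) ≤ A a

/-- **Block averages.**  `T L : C00 →ₗ C00`, `T L (single i 1) = (1/L) ∑_{r<L} single (i L + r) 1`.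
Key inequality, for `μ` monotone, `a` supported in `[0,m)`, `B = m L ≤ L'`:
`N (T L' (mapDomain μ a)) ≤ N (T L a) + 2 (∑|a j|) B / L'`: for `o < L' - B` the map
`σ_o (u) = μ (u / L) L' + o + u` is strictly monotone, `N (mapDomain σ_o (T L a)) = N (T L a)`, and the
average over `o` of `single (c L' + o + u) 1` (`u < B`) is within `2 B / L'` (in `ℓ¹`, hence in `N`) of
the uniform vector on the block `c`.  With `μ = id` this shows `N (T L a) → A a := ⨅_L N (T (L+1) a)`;
so `A` is a seminorm with Markov type, `James` (`tl (k L) (T L a) = tl k a`) and `Merge`. -/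
def Lim3 : Prop :=
  ∀ p K θ : ℝ, 1 < p → (∃ N : Seminorm ℝ C00, MT N p K ∧ James N θ ∧ Spread N) →
    ∃ A : Seminorm ℝ C00, MT A p K ∧ James A θ ∧ Merge A

/-- alternating vector -/
def alt (n : ℕ) : C00 := ∑ j ∈ range n, Finsupp.single j ((-1 : ℝ) ^ j)

/-- **Oscillation.**  `μ s = #{j ≤ n | z j < s}` is monotone and
`mapDomain μ a = α e₀ - t ∑_{1 ≤ j ≤ n} (-1)^(j-1) e_j - cum (z n) a • e_{n+1}`; `A (alt n)` is at most
`A` of its shift (merge along `j ↦ j - 1`).  Second part: `tl (z j + 1) a = - cum (z j) a`. -/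
def Osc : Prop :=
  ∀ (A : Seminorm ℝ C00) (θ : ℝ), 0 ≤ θ → James A θ → Merge A →
    ∀ (a : C00) (z : ℕ → ℕ) (n : ℕ) (t α : ℝ), 1 ≤ n → (∀ j < n, z j < z (j + 1)) →
      0 ≤ α → α ≤ t → tl 0 a = 0 → (∀ j ≤ n, cum (z j) a = if Even j then α else α - t) →
      t * A (alt n) - 2 * t ≤ A a ∧ θ * t / 2 ≤ A a

/-- `x`, `y` are increasing on `[0, M)` and interleave according to `r` -/
def Good (M : ℕ) (r : ℕ → ℕ → Prop) (x y : ℕ → ℕ) : Prop :=
  (∀ a b, a < b → b < M → x a < x b) ∧ (∀ a b, a < b → b < M → y a < y b) ∧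
    ∀ a < M, ∀ b < M, (r a b → x a < y b) ∧ (¬ r a b → y b < x a)

/-- **Stepping up.**  Induction on `M` (internally let the values lie in a finite linear order `S`,
rank them into `ℕ` at the end).  Step: `Pos = WithBot S ×ₗ Bool`, `W = Pos → Fin (D+1)`,
`S' = Lex W` (`Pi.Lex`), `Ω' = Ω × W`, `x' (ω,w) a = trunc w (x ω a, false)` for `a < M`
(`trunc w P Q = if Q < P then w Q else 0`), `x' (ω,w) M = w`;
`ψ π ω = sup` in `WithBot S` of `{x ω a | a < M, r π a M} ∪ {x (T π ω) b | b < M, ¬ r π M b}`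
(`ψ (ι π) (T π ω) = ψ π ω`), `T' π (ω,w) = (T π ω, w + Pi.single (ψ π ω, true) (±1))`, `+1` iff
`r π M M`.  If `(π, ω)` is good, the digits of `w` at the `2M` positions `(x ω a, false)`,
`(x (T π ω) b, false)` are nonzero and the digit at `(ψ, true)` does not wrap, then `(π,(ω,w))` is
good for `M+1` (two truncations are compared at the least of the two truncation positions and
`(ψ, true)`).  New failure fraction `≤ η + (2M+1)/(D+1)`. -/
def ChainEx : Prop :=
  ∀ (P : Type) [Fintype P] (ι : P → P) (r : P → ℕ → ℕ → Prop), (∀ π, ι (ι π) = π) →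
    (∀ π a b, r (ι π) b a ↔ ¬ r π a b) →
    (∀ π a a' b b', a' ≤ a → b ≤ b' → r π a b → r π a' b') →
    ∀ (M : ℕ) (η : ℝ), 0 < η →
      ∃ (Ω : Type) (_ : Fintype Ω) (_ : Nonempty Ω) (x : Ω → ℕ → ℕ) (T : P → Equiv.Perm Ω),
        (∀ π, T (ι π) = (T π)⁻¹) ∧
        ∀ π, ((univ.filter (fun ω => ¬ Good M (r π) (x ω) (x (T π ω)))).card : ℝ) ≤
          η * Fintype.card Ω

def toR : (ℕ →₀ ℤ) →+ C00 := Finsupp.mapRange.addMonoidHom (Int.castAddHom ℝ)

def walk {P Ω : Type} (T : P → Equiv.Perm Ω) (π : ℕ → P) (ω : Ω) (s : ℕ) : Ω :=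
  Nat.rec ω (fun s ω' => T (π s) ω') s

theorem walk_zero {P Ω : Type} (T : P → Equiv.Perm Ω) (π : ℕ → P) (ω : Ω) :
    walk T π ω 0 = ω := rfl

theorem walk_succ {P Ω : Type} (T : P → Equiv.Perm Ω) (π : ℕ → P) (ω : Ω) (s : ℕ) :
    walk T π ω (s + 1) = T (π s) (walk T π ω s) := rfl

def ext {P : Type} {t : ℕ} (π0 : P) (π : Fin t → P) (s : ℕ) : P :=
  if h : s < t then π ⟨s, h⟩ else π0

/-- **Cover trick.**  All labels are supported in `[0,n)` with entries bounded by `B`.  States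
`(ω, g)`, `g : Fin n → ℤ` in the box `[0, L]^n`; the move `π` sends `(ω, g)` to
`(T π ω, g + y π ω)` if this is in the box and stays put otherwise; `P z z' = #{π | move π z = z'} / |P|`
is symmetric (`ι` is a bijection; a valid move is undone by `ι π`), the uniform `w` is reversible,
`f (ω, g) = ∑ g s • single s 1`.  `(P^t) z z'` is the fraction of words moving `z` to `z'`; from `g` at
distance `≥ t B` from the boundary all moves are valid.  So the left side times
`((L + 1 - 2 t B) / (L + 1))^n` is at most the right side; let `L → ∞`. -/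
def Cover : Prop :=
  ∀ (A : Seminorm ℝ C00) (p K : ℝ), 1 < p → 0 < K → MT A p K →
    ∀ (P Ω : Type) [Fintype P] [Fintype Ω] (π0 : P) (ι : P → P) (T : P → Equiv.Perm Ω)
      (y : P → Ω → (ℕ →₀ ℤ)), (∀ π, ι (ι π) = π) → (∀ π, T (ι π) = (T π)⁻¹) →
      (∀ π ω, y (ι π) (T π ω) = - y π ω) → ∀ t : ℕ, 1 ≤ t →
      (∑ ω, ∑ π : Fin t → P,
          A (toR (∑ s ∈ range t, y (ext π0 π s) (walk T (ext π0 π) ω s))) ^ p) /
            (Fintype.card P : ℝ) ^ t ≤
        K ^ p * t * ((∑ ω, ∑ π, A (toR (y π ω)) ^ p) / Fintype.card P)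

/-- block patterns `(i, i', σ)` -/
abbrev Pat (d : ℕ) := Fin d × Fin d × Bool

def Pat.rev {d : ℕ} (π : Pat d) : Pat d := (π.2.1, π.1, !π.2.2)

/-- `x a < y b` iff the block of `a` comes before the block of `b` -/
def rel (d : ℕ) (π : Pat d) (a b : ℕ) : Prop :=
  (a + π.1) / d < (b + π.2.1) / d ∨ ((a + π.1) / d = (b + π.2.1) / d ∧ π.2.2 = true)

/-- edge label: `+1` at the first point of each of the first `K` blocks of `y`, `-1` for `x` -/
def lab (d K : ℕ) (π : Pat d) (x y : ℕ → ℕ) : ℕ →₀ ℤ :=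
  ∑ c ∈ range K, (Finsupp.single (y (c * d - π.2.1)) 1 - Finsupp.single (x (c * d - π.1)) 1)

/-- The `2K` first points alternate (`x`-block `c` before `y`-block `c` iff `σ`), so the label is
`± mapDomain μ (alt (2K))` with `μ` monotone (constant from `2K - 1` on). -/
def LabLe : Prop :=
  ∀ (A : Seminorm ℝ C00), Merge A → ∀ (d K : ℕ) (π : Pat d) (x y : ℕ → ℕ),
    Good (K * d) (rel d π) x y → A (toR (lab d K π x y)) ≤ A (alt (2 * K))

/-- **Ballistic paths.**  For one good edge and a point `q` with `y b ≤ q`, and `q = y b` or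
(`q < y (b+1)` and `b`, `b+1` in the same block), `β = (b + i')/d` with `1 ≤ β`, `β + 2 ≤ K`: put
`g = d (β + [σ]) - i`; then `x (g-1) ≤ q < x g` and `cum q (label) = [¬σ]`.  For the previous edge, whose
second phase differs from `i`, the indices `g - 1`, `g` are in the same block, of number within `1`
of `β`.  Descending from `s = t - 1` to `0`: at an interior point `q` of `X t` the cumulative sum is
`α = #{s < t | ¬ σ_s}`, and `q = X t b` lies in the gap `G b` of `X 0`, where `G` is computed from the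
patterns only, `G (b + d) = G b + d`, `|G b / d - b / d| ≤ t + 1`.  Symmetrically (reverse the path, labels
change sign, `Pat.rev`) at an interior point of `X 0` it is `α - t`.  Marks:
`z (2c) = X t (b₀ + c d)`, `z (2c+1) = X 0 (G b₀ + c d)`, `b₀ = (2t + 4) d`. -/
def PathOsc : Prop :=
  ∀ (d K t : ℕ) (π : ℕ → Pat d) (X : ℕ → ℕ → ℕ), 1 ≤ t → 5 * t + 11 ≤ K →
    (∀ s < t, Good (K * d) (rel d (π s)) (X s) (X (s + 1))) →
    (∀ s, s + 1 < t → (π s).2.1 ≠ (π (s + 1)).1) →
    ∃ (z : ℕ → ℕ) (α : ℝ), (∀ j < 2 * (K - 5 * t - 10), z j < z (j + 1)) ∧ 0 ≤ α ∧ α ≤ t ∧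
      tl 0 (toR (∑ s ∈ range t, lab d K (π s) (X s) (X (s + 1)))) = 0 ∧
      ∀ j ≤ 2 * (K - 5 * t - 10),
        cum (z j) (toR (∑ s ∈ range t, lab d K (π s) (X s) (X (s + 1)))) =
          if Even j then α else α - t

/-- the contradiction (from `Osc`, `ChainEx`, `Cover`, `LabLe`, `PathOsc`) -/
def NoJames : Prop :=
  ∀ (A : Seminorm ℝ C00) (p K θ : ℝ), 1 < p → 0 < K → 0 < θ → MT A p K → James A θ → Merge A →
    False

end

end Crest.Agent.R140
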