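import Crest.Agent.R140.Defs

/-! Row 140, task C: `Lim1`, `Lim2` (and a small limit library `LimL`). -/

set_option autoImplicit false

open Finset Filter Topology Function

namespace Crest.Agent.R140

noncomputable section

open Classical

namespace LimL

theorem mt_comp {N : C00 → ℝ} {p K : ℝ} (h : MT N p K) (L : C00 →ₗ[ℝ] C00) :
    MT (fun a => N (L a)) p K := by
  intro S _ _ w P h1 h2 h3 h4 h5 f t ht
  have := h S w P h1 h2 h3 h4 h5 (fun i => L (f i)) t ht
  simpa only [map_sub] using this

/-- limits of seminorms with Markov type -/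
theorem lim_sem {ι : Type*} {p K : ℝ} (hp : 1 < p) (M : ι → Seminorm ℝ C00)
    (hM : ∀ i, MT (M i) p K) (l : ℕ → Filter ι) (hl : ∀ m, (l m).NeBot) (g : C00 → ℝ)
    (hg : ∀ a, ∀ᶠ m in atTop, Tendsto (fun i => M i a) (l m) (𝓝 (g a))) :
    ∃ N : Seminorm ℝ C00, (∀ a, N a = g a) ∧ MT N p K := by
  have hadd : ∀ a b, g (a + b) ≤ g a + g b := by
    intro a b
    obtain ⟨m, h1, h2, h3⟩ := ((hg a).and ((hg b).and (hg (a + b)))).exists
    haveI := hl m
    exact le_of_tendsto_of_tendsto' h3 (h1.add h2) fun i => map_add_le_add _ _ _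
  have hsmul : ∀ (c : ℝ) a, g (c • a) = ‖c‖ * g a := by
    intro c a
    obtain ⟨m, h1, h2⟩ := ((hg a).and (hg (c • a))).exists
    haveI := hl m
    refine tendsto_nhds_unique h2 ?_
    simpa only [map_smul_eq_mul] using h1.const_mul ‖c‖
  refine ⟨Seminorm.of g hadd hsmul, fun a => rfl, ?_⟩
  intro S _ _ w P h1 h2 h3 h4 h5 f t ht
  obtain ⟨m, hm⟩ := ((eventually_all (ι := S × S)).2 fun q => hg (f q.2 - f q.1)).exists
  haveI := hl m
  have hc : ∀ i j, Tendsto (fun k => M k (f j - f i) ^ p) (l m) (𝓝 (g (f j - f i) ^ p)) :=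
    fun i j => (hm (i, j)).rpow_const (Or.inr (by linarith))
  refine le_of_tendsto_of_tendsto' (b := l m) ?_ ?_ fun k => hM k S w P h1 h2 h3 h4 h5 f t ht
  · exact tendsto_finsetSum _ fun i _ => tendsto_finsetSum _ fun j _ => (hc i j).const_mul _
  · exact (tendsto_finsetSum _ fun i _ => tendsto_finsetSum _ fun j _ =>
      (hc i j).const_mul _).const_mul _

theorem ex_lim {ι : Type*} (U : Ultrafilter ι) (f : ι → ℝ) (C : ℝ)
    (h : ∀ i, 0 ≤ f i ∧ f i ≤ C) : ∃ x, Tendsto f U (𝓝 x) := by
  obtain ⟨x, -, hx⟩ := (isCompact_Icc (a := (0 : ℝ)) (b := C)).ultrafilter_le_nhds (U.map f)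
    (by
      rw [le_principal_iff]
      exact Ultrafilter.mem_map.2 (Filter.univ_mem' fun i => h i))
  exact ⟨x, hx⟩

theorem le_l1 (N : Seminorm ℝ C00) (h : ∀ j, N (Finsupp.single j 1) ≤ 1) (a : C00) :
    N a ≤ ∑ j ∈ a.support, |a j| := by
  conv_lhs => rw [← Finsupp.sum_single a, Finsupp.sum]
  refine (Finset.le_sum_of_subadditive N (map_zero N).le (map_add_le_add N) _ _).trans
    (Finset.sum_le_sum fun j _ => ?_)
  have : Finsupp.single j (a j) = a j • Finsupp.single j (1 : ℝ) := by simp
  rw [this, map_smul_eq_mul, Real.norm_eq_abs]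
  exact mul_le_of_le_one_right (abs_nonneg _) (h j)

theorem tl_eq (k : ℕ) (a : C00) : tl k a = a.sum fun j x => if k ≤ j then x else 0 := by
  unfold tl Finsupp.sum
  rw [Finset.sum_filter]

theorem tl_map (k : ℕ) (σ : ℕ → ℕ) (a : C00) :
    tl k (Finsupp.mapDomain σ a) = a.sum fun j x => if k ≤ σ j then x else 0 := by
  rw [tl_eq, Finsupp.sum_mapDomain_index]
  · intro b; simp
  · intro b x y; split_ifs <;> simp

/-- iterated ultralimit -/
def SS (N : Seminorm ℝ C00) : List ℝ → C00 → ℝ
  | [], v => N v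
  | c :: l, v => limUnder (hyperfilter ℕ : Filter ℕ) fun j => SS N l (v + Finsupp.single j c)

theorem SS_bd (N : Seminorm ℝ C00) (h : ∀ j, N (Finsupp.single j 1) ≤ 1) (l : List ℝ) :
    ∀ v, (0 ≤ SS N l v ∧ SS N l v ≤ N v + (l.map fun x => |x|).sum) ∧
      ∀ c, Tendsto (fun j => SS N l (v + Finsupp.single j c)) (hyperfilter ℕ : Filter ℕ)
        (𝓝 (SS N (c :: l) v)) := by
  have key : ∀ l : List ℝ, (∀ v, 0 ≤ SS N l v ∧ SS N l v ≤ N v + (l.map fun x => |x|).sum) →
      ∀ v c, (∀ j, 0 ≤ SS N l (v + Finsupp.single j c) ∧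
        SS N l (v + Finsupp.single j c) ≤ N v + ((c :: l).map fun x => |x|).sum) := by
    intro l hl v c j
    refine ⟨(hl _).1, (hl _).2.trans ?_⟩
    have h1 : N (v + Finsupp.single j c) ≤ N v + |c| := by
      refine (map_add_le_add N _ _).trans (add_le_add le_rfl ?_)
      have : Finsupp.single j c = c • Finsupp.single j (1 : ℝ) := by simp
      rw [this, map_smul_eq_mul, Real.norm_eq_abs]
      exact mul_le_of_le_one_right (abs_nonneg _) (h j)
    simp only [List.map_cons, List.sum_cons]
    linarith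
  have tend : ∀ l : List ℝ, (∀ v, 0 ≤ SS N l v ∧ SS N l v ≤ N v + (l.map fun x => |x|).sum) →
      ∀ v c, Tendsto (fun j => SS N l (v + Finsupp.single j c)) (hyperfilter ℕ : Filter ℕ)
        (𝓝 (SS N (c :: l) v)) := by
    intro l hl v c
    exact tendsto_nhds_limUnder (ex_lim _ _ _ (key l hl v c))
  have bd : ∀ l : List ℝ, ∀ v, 0 ≤ SS N l v ∧ SS N l v ≤ N v + (l.map fun x => |x|).sum := by
    intro l
    induction l with
    | nil => intro v; simp [SS]
    | cons c l ih =>
      intro v
      exact ⟨ge_of_tendsto' (tend l ih v c) fun j => (key l ih v c j).1,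
        le_of_tendsto' (tend l ih v c) fun j => (key l ih v c j).2⟩
  exact fun v => ⟨bd l v, tend l (bd l) v⟩

theorem SS_filter (N : Seminorm ℝ C00) (l : List ℝ) :
    ∀ v, SS N (l.filter fun x => x ≠ 0) v = SS N l v := by
  induction l with
  | nil => intro v; rfl
  | cons c l ih =>
    intro v
    by_cases hc : c = 0
    · subst hc
      have : ((0 : ℝ) :: l).filter (fun x => x ≠ 0) = l.filter fun x => x ≠ 0 := by simp
      rw [this, ih]
      simp only [SS, Finsupp.single_zero, add_zero]
      exact (tendsto_const_nhds.limUnder_eq).symm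
    · have : (c :: l).filter (fun x => x ≠ 0) = c :: l.filter fun x => x ≠ 0 := by simp [hc]
      rw [this]
      simp only [SS, ih]

def cons (j : ℕ) (js : ℕ → ℕ) : ℕ → ℕ := fun i => Nat.casesOn i j js

def FF : ℕ → Filter (ℕ → ℕ)
  | 0 => pure id
  | m + 1 => (hyperfilter ℕ : Filter ℕ).bind fun j => (FF m).map (cons j)

theorem FF_neBot (m : ℕ) : (FF m).NeBot := by
  induction m with
  | zero => exact pure_neBot
  | succ m ih =>
    refine ⟨fun h => ?_⟩
    have h1 : ∀ᶠ js in FF (m + 1), False := by rw [h]; exact eventually_bot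
    rw [FF, eventually_bind] at h1
    obtain ⟨j, hj⟩ := h1.exists
    obtain ⟨_, h2⟩ := (eventually_map.1 hj).exists
    exact h2

theorem FF_mono (m : ℕ) : ∀ b, ∀ᶠ js in FF m,
    (∀ i < m, b < js i) ∧ ∀ i i', i < i' → i' < m → js i < js i' := by
  induction m with
  | zero => intro b; exact Eventually.of_forall fun js => ⟨by simp, by simp⟩
  | succ m ih =>
    intro b
    rw [FF, eventually_bind]
    have h1 : ∀ᶠ j in (hyperfilter ℕ : Filter ℕ), b < j :=
      (eventually_gt_atTop b).filter_mono (by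
        rw [← Nat.cofinite_eq_atTop]; exact hyperfilter_le_cofinite)
    filter_upwards [h1] with j hj
    rw [eventually_map]
    filter_upwards [ih j] with js hjs
    refine ⟨fun i hi => ?_, fun i i' hii' hi' => ?_⟩
    · cases i with
      | zero => exact hj
      | succ i => exact hj.trans (hjs.1 i (by omega))
    · cases i' with
      | zero => omega
      | succ i' =>
        cases i with
        | zero => exact hjs.1 i' (by omega)
        | succ i => exact hjs.2 i i' (by omega) (by omega)

theorem FF_tend (N : Seminorm ℝ C00) (h : ∀ j, N (Finsupp.single j 1) ≤ 1) (m : ℕ) :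
    ∀ (c : ℕ → ℝ) (v : C00), Tendsto (fun js : ℕ → ℕ =>
      N (v + ∑ i ∈ range m, Finsupp.single (js i) (c i))) (FF m)
      (𝓝 (SS N ((List.range m).map c) v)) := by
  induction m with
  | zero => intro c v; simpa [SS] using tendsto_const_nhds
  | succ m ih =>
    intro c v
    rw [List.range_succ_eq_map, List.map_cons, List.map_map, tendsto_nhds]
    intro s hs hmem
    have h1 := (SS_bd N h ((List.range m).map (c ∘ Nat.succ)) v).2 (c 0)
    change ∀ᶠ js in FF (m + 1), _
    rw [FF, eventually_bind]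
    filter_upwards [h1.eventually (hs.mem_nhds hmem)] with j hj
    rw [eventually_map]
    filter_upwards [(ih (c ∘ Nat.succ) (v + Finsupp.single j (c 0))).eventually
      (hs.mem_nhds hj)] with js hjs
    have e : v + ∑ i ∈ range (m + 1), Finsupp.single (cons j js i) (c i) =
        (v + Finsupp.single j (c 0)) + ∑ i ∈ range m, Finsupp.single (js i) ((c ∘ Nat.succ) i) := by
      rw [Finset.sum_range_succ']
      simp only [cons, comp_apply, Nat.succ_eq_add_one]
      abel
    rw [e]
    exact hjs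

theorem filt_eq (a : C00) (m : ℕ) (hm : ∀ j ∈ a.support, j < m) :
    ((List.range m).map a).filter (fun x => x ≠ 0) = (a.support.sort (· ≤ ·)).map a := by
  rw [List.filter_map]
  congr 1
  refine List.SortedLT.eq_of_mem_iff ?_ (Finset.sortedLT_sort _) fun j => ?_
  · exact ((List.pairwise_lt_range).filter _).sortedLT
  · simp only [List.mem_filter, List.mem_range, comp_apply, decide_eq_true_eq, Finset.mem_sort,
      Finsupp.mem_support_iff]
    exact ⟨fun h => h.2, fun h => ⟨hm j (Finsupp.mem_support_iff.2 h), h⟩⟩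

theorem ev_supp (a : C00) : ∀ᶠ m in atTop, ∀ j ∈ a.support, j < m := by
  filter_upwards [eventually_gt_atTop (a.support.sup id)] with m hm j hj
  exact lt_of_le_of_lt (Finset.le_sup (f := id) hj) hm

theorem map_eq (js : ℕ → ℕ) (a : C00) (m : ℕ) (hm : ∀ j ∈ a.support, j < m) :
    Finsupp.mapDomain js a = ∑ i ∈ range m, Finsupp.single (js i) (a i) := by
  rw [Finsupp.mapDomain, Finsupp.sum_of_support_subset _ (s := range m)]
  · intro j hj; exact mem_range.2 (hm j hj)
  · intro j _; simp

end LimL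

open LimL

theorem lim1 : Lim1 := by
  intro p K θ hp h
  choose N hN hJ using h
  have hex : ∀ a, ∃ x, Tendsto (fun n => N n a) (hyperfilter ℕ : Filter ℕ) (𝓝 x) := fun a =>
    ex_lim _ _ _ fun n => ⟨apply_nonneg _ _, le_l1 _ (hJ n).1 a⟩
  choose g hg using hex
  obtain ⟨N', hN', hMT⟩ := lim_sem hp N hN (fun _ => (hyperfilter ℕ : Filter ℕ))
    (fun _ => inferInstance) g fun a => Eventually.of_forall fun _ => hg a
  refine ⟨N', hMT, fun j => ?_, fun a k => ?_⟩
  · rw [hN']
    exact le_of_tendsto' (hg _) fun n => (hJ n).1 j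
  · rw [hN']
    refine ge_of_tendsto (hg a) ?_
    have h1 : ∀ᶠ n in (hyperfilter ℕ : Filter ℕ), ∀ j ∈ a.support, j < n :=
      (ev_supp a).filter_mono (by rw [← Nat.cofinite_eq_atTop]; exact hyperfilter_le_cofinite)
    filter_upwards [h1] with n hn
    exact (hJ n).2 a hn k

theorem lim2 : Lim2 := by
  rintro p K θ hp ⟨N, hN, hJ⟩
  let g : C00 → ℝ := fun a => SS N ((a.support.sort (· ≤ ·)).map a) 0
  have hg : ∀ (a : C00) (m : ℕ), (∀ j ∈ a.support, j < m) →
      Tendsto (fun js : ℕ → ℕ => N (Finsupp.mapDomain js a)) (FF m) (𝓝 (g a)) := by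
    intro a m hm
    have := FF_tend N hJ.1 m a 0
    rw [← SS_filter, filt_eq a m hm] at this
    simpa only [zero_add, map_eq _ a m hm] using this
  obtain ⟨N', hN', hMT⟩ := lim_sem hp (fun js : ℕ → ℕ => N.comp (Finsupp.lmapDomain ℝ ℝ js))
    (fun js => mt_comp hN (Finsupp.lmapDomain ℝ ℝ js)) FF FF_neBot g fun a => by
      filter_upwards [ev_supp a] with m hm
      exact hg a m hm
  refine ⟨N', hMT, ⟨fun j => ?_, fun a k => ?_⟩, fun σ hσ a => ?_⟩
  · rw [hN']
    obtain ⟨m, hm⟩ := (ev_supp (Finsupp.single j (1 : ℝ))).exists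
    haveI := FF_neBot m
    refine le_of_tendsto' (hg _ m hm) fun js => ?_
    rw [Finsupp.mapDomain_single]
    exact hJ.1 _
  · rw [hN']
    obtain ⟨m, hm, hk⟩ := ((ev_supp a).and (eventually_gt_atTop k)).exists
    haveI := FF_neBot m
    refine ge_of_tendsto (hg a m hm) ?_
    filter_upwards [FF_mono m 0] with js hjs
    have : tl (js k) (Finsupp.mapDomain js a) = tl k a := by
      rw [tl_map, tl_eq]
      refine Finsupp.sum_congr fun j hj => ?_
      have hj' := hm j hj
      have : js k ≤ js j ↔ k ≤ j := by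
        constructor
        · intro h1
          by_contra h2
          exact absurd (hjs.2 j k (by omega) hk) (by omega)
        · intro h1
          rcases h1.eq_or_lt with h2 | h2
          · rw [h2]
          · exact (hjs.2 k j h2 hj').le
      simp only [this]
    rw [← this]
    exact hJ.2 _ _
  · rw [hN', hN']
    have h1 : (Finsupp.mapDomain σ a).support.sort (· ≤ ·) = (a.support.sort (· ≤ ·)).map σ := by
      refine List.SortedLT.eq_of_mem_iff (Finset.sortedLT_sort _) ?_ fun j => ?_
      · exact ((Finset.sortedLT_sort _).pairwise.map σ fun _ _ h => hσ h).sortedLT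
      · rw [Finsupp.mapDomain_support_of_injective hσ.injective]
        simp
    simp only [g]
    rw [h1, List.map_map]
    congr 2
    funext j
    simp [Finsupp.mapDomain_apply hσ.injective]

end

end Crest.Agent.R140
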