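import Crest.Agent.R140.Lim12

/-! Row 140, task D: `Lim3` (block averages). -/

set_option autoImplicit false

open Finset Filter Topology Function

namespace Crest.Agent.R140

noncomputable section

open Classical

open LimL

namespace Lim3

def ee (j : ℕ) : C00 := Finsupp.single j 1

def uu (L c : ℕ) : C00 := (1 / L : ℝ) • ∑ r ∈ range L, ee (c * L + r)

def TT (L : ℕ) : C00 →ₗ[ℝ] C00 := Finsupp.linearCombination ℝ (uu L)

theorem sum_le (N : Seminorm ℝ C00) {α : Type*} (s : Finset α) (f : α → C00) :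
    N (∑ i ∈ s, f i) ≤ ∑ i ∈ s, N (f i) :=
  Finset.le_sum_of_subadditive N (map_zero N).le (map_add_le_add N) _ _

theorem sum_ee (N : Seminorm ℝ C00) (h : ∀ j, N (Finsupp.single j 1) ≤ 1) (s : Finset ℕ)
    (f : ℕ → ℕ) : N (∑ i ∈ s, ee (f i)) ≤ s.card := by
  refine (sum_le N s _).trans ?_
  calc ∑ i ∈ s, N (ee (f i)) ≤ ∑ _i ∈ s, (1 : ℝ) := Finset.sum_le_sum fun i _ => h _
    _ = s.card := by simp

theorem uu_le (N : Seminorm ℝ C00) (h : ∀ j, N (Finsupp.single j 1) ≤ 1) (L c : ℕ) :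
    N (uu L c) ≤ 1 := by
  rw [uu, map_smul_eq_mul, Real.norm_eq_abs, abs_of_nonneg (by positivity)]
  have := sum_ee N h (range L) fun r => c * L + r
  rw [card_range] at this
  rcases Nat.eq_zero_or_pos L with hL | hL
  · simp [hL]
  · have hL' : (0 : ℝ) < L := by exact_mod_cast hL
    rw [one_div, inv_mul_le_iff₀ hL', mul_one]
    exact this

theorem TT_eq (L m : ℕ) (a : C00) (hm : ∀ j ∈ a.support, j < m) :
    TT L a = ∑ i ∈ range m, a i • uu L i := by
  rw [TT, Finsupp.linearCombination_apply, Finsupp.sum_of_support_subset _ (s := range m)]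
  · intro j hj; exact mem_range.2 (hm j hj)
  · intro j _; simp

theorem TT_le (N : Seminorm ℝ C00) (h : ∀ j, N (Finsupp.single j 1) ≤ 1) (L : ℕ) (a : C00) :
    N (TT L a) ≤ ∑ j ∈ a.support, |a j| := by
  refine le_l1 (N.comp (TT L)) (fun j => ?_) a
  change N (TT L _) ≤ 1
  rw [TT, Finsupp.linearCombination_single, one_smul]
  exact uu_le N h L j

theorem avg_close (N : Seminorm ℝ C00) (h : ∀ j, N (Finsupp.single j 1) ≤ 1) (n B c w : ℕ)
    (hn : 0 < n) (hw : w ≤ B) :
    N (uu (n + B) c - (1 / n : ℝ) • ∑ o ∈ range n, ee (c * (n + B) + o + w)) ≤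
      2 * B / ((n + B : ℕ) : ℝ) := by
  have hsub : Ico w (w + n) ⊆ range (n + B) := by
    intro x hx
    rw [mem_Ico] at hx
    rw [mem_range]
    omega
  have h1 : ∑ o ∈ range n, ee (c * (n + B) + o + w) =
      ∑ s ∈ Ico w (w + n), ee (c * (n + B) + s) := by
    rw [Finset.sum_Ico_eq_sum_range]
    simp only [Nat.add_sub_cancel_left]
    exact Finset.sum_congr rfl fun o _ => by congr 1; ring
  have hn' : (0 : ℝ) < n := by exact_mod_cast hn
  have hL : (0 : ℝ) < ((n + B : ℕ) : ℝ) := by positivity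
  have hcast : ((n + B : ℕ) : ℝ) = n + B := by push_cast; ring
  have h2 : uu (n + B) c - (1 / n : ℝ) • ∑ o ∈ range n, ee (c * (n + B) + o + w) =
      (1 / ((n + B : ℕ) : ℝ)) • ∑ s ∈ range (n + B) \ Ico w (w + n), ee (c * (n + B) + s) -
        (1 / n - 1 / ((n + B : ℕ) : ℝ)) • ∑ s ∈ Ico w (w + n), ee (c * (n + B) + s) := by
    rw [h1, uu, ← Finset.sum_sdiff hsub, smul_add, sub_smul]
    abel
  rw [h2]
  refine (map_sub_le_add N _ _).trans ?_
  have h3 := sum_ee N h (range (n + B) \ Ico w (w + n)) fun s => c * (n + B) + s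
  have h4 := sum_ee N h (Ico w (w + n)) fun s => c * (n + B) + s
  rw [Finset.card_sdiff_of_subset hsub, card_range, Nat.card_Ico] at h3
  rw [Nat.card_Ico] at h4
  have e3 : n + B - (w + n - w) = B := by omega
  have e4 : w + n - w = n := by omega
  rw [e3] at h3
  rw [e4] at h4
  have h5 : (0 : ℝ) ≤ 1 / n - 1 / ((n + B : ℕ) : ℝ) := by
    rw [sub_nonneg]
    apply one_div_le_one_div_of_le hn'
    rw [hcast]
    have : (0 : ℝ) ≤ B := Nat.cast_nonneg _
    linarith
  rw [map_smul_eq_mul, map_smul_eq_mul, Real.norm_eq_abs, Real.norm_eq_abs,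
    abs_of_nonneg (by positivity), abs_of_nonneg h5]
  calc _ ≤ 1 / ((n + B : ℕ) : ℝ) * B + (1 / n - 1 / ((n + B : ℕ) : ℝ)) * n :=
        add_le_add (mul_le_mul_of_nonneg_left h3 (by positivity))
          (mul_le_mul_of_nonneg_left h4 h5)
    _ = 2 * B / ((n + B : ℕ) : ℝ) := by
        rw [hcast]
        field_simp
        ring

theorem key (N : Seminorm ℝ C00) (h : ∀ j, N (Finsupp.single j 1) ≤ 1) (hS : Spread N)
    (μ : ℕ → ℕ) (hμ : Monotone μ) (a : C00) (m : ℕ) (hm : ∀ j ∈ a.support, j < m) (L n : ℕ)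
    (hL : 0 < L) (hn : 0 < n) :
    N (TT (n + m * L) (Finsupp.mapDomain μ a)) ≤
      N (TT L a) + (∑ i ∈ range m, |a i|) * (2 * ((m * L : ℕ) : ℝ) / ((n + m * L : ℕ) : ℝ)) := by
  set B := m * L with hB
  have hn' : (0 : ℝ) < n := by exact_mod_cast hn
  have hL' : (0 : ℝ) < L := by exact_mod_cast hL
  let σ : ℕ → ℕ → ℕ := fun o w => μ (w / L) * (n + B) + o + w
  have hσ : ∀ o, StrictMono (σ o) := by
    intro o w w' hw
    have : μ (w / L) * (n + B) ≤ μ (w' / L) * (n + B) :=
      Nat.mul_le_mul_right _ (hμ (Nat.div_le_div_right hw.le))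
    simp only [σ]
    omega
  have hmap : ∀ o, Finsupp.mapDomain (σ o) (TT L a) = ∑ i ∈ range m, a i • ((1 / L : ℝ) •
      ∑ r ∈ range L, ee (μ i * (n + B) + o + (i * L + r))) := by
    intro o
    rw [TT_eq L m a hm]
    change Finsupp.lmapDomain ℝ ℝ (σ o) _ = _
    simp only [map_sum, map_smul, uu]
    refine Finset.sum_congr rfl fun i _ => ?_
    congr 2
    refine Finset.sum_congr rfl fun r hr => ?_
    have hr' := mem_range.1 hr
    have : (i * L + r) / L = i := by
      rw [mul_comm, Nat.mul_add_div hL, Nat.div_eq_of_lt hr', add_zero]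
    simp [ee, σ, this]
  have hV : N ((1 / n : ℝ) • ∑ o ∈ range n, Finsupp.mapDomain (σ o) (TT L a)) ≤ N (TT L a) := by
    rw [map_smul_eq_mul, Real.norm_eq_abs, abs_of_nonneg (by positivity), one_div,
      inv_mul_le_iff₀ hn']
    refine (sum_le N _ _).trans (le_of_eq ?_)
    simp only [hS _ (hσ _), sum_const, card_range, nsmul_eq_mul]
  have hT : TT (n + B) (Finsupp.mapDomain μ a) = ∑ i ∈ range m, a i • uu (n + B) (μ i) := by
    rw [map_eq μ a m hm, map_sum]
    refine Finset.sum_congr rfl fun i _ => ?_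
    rw [TT, Finsupp.linearCombination_single]
  have hdiff : TT (n + B) (Finsupp.mapDomain μ a) =
      (1 / n : ℝ) • ∑ o ∈ range n, Finsupp.mapDomain (σ o) (TT L a) +
      ∑ i ∈ range m, a i • ((1 / L : ℝ) • ∑ r ∈ range L, (uu (n + B) (μ i) -
        (1 / n : ℝ) • ∑ o ∈ range n, ee (μ i * (n + B) + o + (i * L + r)))) := by
    simp only [hmap]
    rw [hT, Finset.sum_comm, Finset.smul_sum, ← Finset.sum_add_distrib]
    refine Finset.sum_congr rfl fun i _ => ?_
    rw [← Finset.smul_sum, smul_comm, ← smul_add]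
    congr 1
    rw [Finset.sum_sub_distrib, smul_sub, ← Finset.smul_sum, ← Finset.smul_sum, Finset.sum_comm,
      smul_comm (1 / L : ℝ) (1 / n : ℝ), sum_const, card_range, ← Nat.cast_smul_eq_nsmul ℝ,
      smul_smul (1 / L : ℝ), one_div_mul_cancel hL'.ne', one_smul]
    abel
  rw [hdiff]
  refine (map_add_le_add N _ _).trans (add_le_add hV ?_)
  rw [Finset.sum_mul]
  refine (sum_le N _ _).trans (Finset.sum_le_sum fun i hi => ?_)
  rw [map_smul_eq_mul, Real.norm_eq_abs]
  refine mul_le_mul_of_nonneg_left ?_ (abs_nonneg _)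
  rw [map_smul_eq_mul, Real.norm_eq_abs, abs_of_nonneg (by positivity), one_div,
    inv_mul_le_iff₀ hL']
  refine (sum_le N _ _).trans ?_
  calc _ ≤ ∑ _r ∈ range L, 2 * (B : ℝ) / ((n + B : ℕ) : ℝ) := by
        refine Finset.sum_le_sum fun r hr => ?_
        have hw : i * L + r ≤ B := by
          have h1 := mem_range.1 hi
          have h2 := mem_range.1 hr
          have : (i + 1) * L ≤ m * L := Nat.mul_le_mul_right _ h1
          rw [hB]
          nlinarith
        simpa only [one_div] using avg_close N h n B (μ i) (i * L + r) hn hw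
    _ = _ := by simp

theorem tl_TT (k L : ℕ) (hL : 0 < L) (a : C00) : tl (k * L) (TT L a) = tl k a := by
  have hL' : (0 : ℝ) < L := by exact_mod_cast hL
  let φ : ℕ → C00 →ₗ[ℝ] ℝ := fun k => Finsupp.linearCombination ℝ fun j => if k ≤ j then 1 else 0
  have hφ : ∀ k a, tl k a = φ k a := by
    intro k a
    rw [tl_eq, Finsupp.linearCombination_apply]
    exact Finsupp.sum_congr fun j _ => by split_ifs <;> simp
  rw [hφ, hφ]
  have : (φ (k * L)) ∘ₗ TT L = φ k := by
    refine Finsupp.lhom_ext fun i c => ?_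
    simp only [LinearMap.comp_apply, TT, Finsupp.linearCombination_single, map_smul, uu, map_sum,
      ee, φ, smul_eq_mul, one_mul]
    congr 1
    by_cases hk : k ≤ i
    · have : ∀ r ∈ range L, (if k * L ≤ i * L + r then (1 : ℝ) else 0) = 1 := by
        intro r _
        have : k * L ≤ i * L := Nat.mul_le_mul_right _ hk
        rw [if_pos (by omega)]
      rw [Finset.sum_congr rfl this]
      simp [hk, hL'.ne']
    · have : ∀ r ∈ range L, (if k * L ≤ i * L + r then (1 : ℝ) else 0) = 0 := by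
        intro r hr
        have h1 : (i + 1) * L ≤ k * L := Nat.mul_le_mul_right _ (by omega)
        have h2 := mem_range.1 hr
        rw [if_neg (by nlinarith)]
      rw [Finset.sum_congr rfl this]
      simp [hk]
  exact LinearMap.congr_fun this a

end Lim3

open Lim3

theorem lim3 : Lim3 := by
  rintro p K θ hp ⟨N, hN, hJ, hS⟩
  have hex : ∀ a, ∃ x, Tendsto (fun L => N (TT (L + 1) a)) (hyperfilter ℕ : Filter ℕ) (𝓝 x) :=
    fun a => ex_lim _ _ _ fun L => ⟨apply_nonneg _ _, TT_le N hJ.1 _ a⟩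
  choose g hg using hex
  have hle : (hyperfilter ℕ : Filter ℕ) ≤ atTop := by
    rw [← Nat.cofinite_eq_atTop]; exact hyperfilter_le_cofinite
  obtain ⟨A, hA, hMT⟩ := lim_sem hp (fun L => N.comp (TT (L + 1)))
    (fun L => mt_comp hN (TT (L + 1))) (fun _ => (hyperfilter ℕ : Filter ℕ))
    (fun _ => inferInstance) g fun a => Eventually.of_forall fun _ => hg a
  refine ⟨A, hMT, ⟨fun j => ?_, fun a k => ?_⟩, fun μ hμ a => ?_⟩
  · rw [hA]
    refine le_of_tendsto' (hg _) fun L => ?_
    rw [TT, Finsupp.linearCombination_single, one_smul]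
    exact uu_le N hJ.1 _ j
  · rw [hA]
    refine ge_of_tendsto' (hg a) fun L => ?_
    rw [← tl_TT k (L + 1) L.succ_pos a]
    exact hJ.2 _ _
  · rw [hA, hA]
    refine ge_of_tendsto' (hg a) fun L => ?_
    obtain ⟨m, hm⟩ := (ev_supp a).exists
    set B := m * (L + 1) with hB
    have hz : Tendsto (fun L' : ℕ => N (TT (L + 1) a) +
        (∑ i ∈ range m, |a i|) * (2 * (B : ℝ) / ((L' + 1 : ℕ) : ℝ))) atTop
        (𝓝 (N (TT (L + 1) a) + (∑ i ∈ range m, |a i|) * 0)) := by
      refine tendsto_const_nhds.add (Tendsto.const_mul _ ?_)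
      exact (tendsto_const_div_atTop_nhds_zero_nat (2 * (B : ℝ))).comp (tendsto_add_atTop_nat 1)
    rw [mul_zero, add_zero] at hz
    refine le_of_tendsto_of_tendsto (hg _) (hz.mono_left hle) ?_
    filter_upwards [(eventually_ge_atTop B).filter_mono hle] with L' hL'
    have := key N hJ.1 hS μ hμ a m hm (L + 1) (L' + 1 - B) L.succ_pos (by omega)
    rw [← hB, show L' + 1 - B + B = L' + 1 by omega] at this
    exact this

end

end Crest.Agent.R140
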