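import Crest.Agent.R140.Defs

set_option autoImplicit false

open Finset Filter Topology Function

namespace Crest.Agent.R140

namespace MS

variable {X : Type*} [NormedAddCommGroup X] [NormedSpace ℝ X]

def R (n : ℕ) (L : X → (ℕ → ℝ) → ℕ → ℝ) (z : X) : Prop :=
  ∃ (Ω : Type) (_ : Fintype Ω) (μ : Ω → ℝ) (f : Ω → ℕ → X), (∀ o, 0 ≤ μ o) ∧ ∑ o, μ o = 1 ∧
    (∀ o j, ‖f o j‖ ≤ 1) ∧ (∀ j < n, ∑ o, μ o • f o j = z) ∧
    ∀ (v : X) (a : ℕ → ℝ) (k : ℕ), L v a k ≤ ∑ o, μ o * ‖v + ∑ j ∈ range n, a j • f o j‖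

theorem R.mono {n : ℕ} {L L' : X → (ℕ → ℝ) → ℕ → ℝ} {z : X} (h : R n L' z)
    (hL : ∀ v a k, L v a k ≤ L' v a k) : R n L z := by
  obtain ⟨Ω, _, μ, f, h1, h2, h3, h4, h5⟩ := h
  exact ⟨Ω, inferInstance, μ, f, h1, h2, h3, h4, fun v a k => (hL v a k).trans (h5 v a k)⟩

theorem R.mix {n : ℕ} {L L' : X → (ℕ → ℝ) → ℕ → ℝ} {x y : X} (h : R n L x) (h' : R n L' y)
    {s t : ℝ} (hs : 0 ≤ s) (ht : 0 ≤ t) (hst : s + t = 1) :
    R n (fun v a k => s * L v a k + t * L' v a k) (s • x + t • y) := by
  obtain ⟨Ω, _, μ, f, h1, h2, h3, h4, h5⟩ := h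
  obtain ⟨Ω', _, μ', f', h1', h2', h3', h4', h5'⟩ := h'
  refine ⟨Ω ⊕ Ω', inferInstance, Sum.elim (fun o => s * μ o) (fun o => t * μ' o), Sum.elim f f',
    ?_, ?_, ?_, ?_, ?_⟩
  · rintro (o | o)
    · exact mul_nonneg hs (h1 o)
    · exact mul_nonneg ht (h1' o)
  · simp only [Fintype.sum_sum_type, Sum.elim_inl, Sum.elim_inr, ← Finset.mul_sum, h2, h2']
    linarith
  · rintro (o | o) j
    · exact h3 o j
    · exact h3' o j
  · intro j hj
    simp only [Fintype.sum_sum_type, Sum.elim_inl, Sum.elim_inr, mul_smul, ← Finset.smul_sum,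
      h4 j hj, h4' j hj]
  · intro v a k
    simp only [Fintype.sum_sum_type, Sum.elim_inl, Sum.elim_inr, mul_assoc, ← Finset.mul_sum]
    exact add_le_add (mul_le_mul_of_nonneg_left (h5 v a k) hs)
      (mul_le_mul_of_nonneg_left (h5' v a k) ht)

noncomputable def L0 (X : Type*) (ε : ℝ) (n : ℕ) : X → (ℕ → ℝ) → ℕ → ℝ :=
  fun _ a k => ε / 2 * |∑ j ∈ (range n).filter (fun j => k ≤ j), a j|

theorem R.cons {n : ℕ} {ε : ℝ} {x : X} (h : R n (L0 X ε n) x) (hx : ‖x‖ ≤ 1) :
    R (n + 1) (fun v a k => if k = 0 then ‖v + (∑ j ∈ range (n + 1), a j) • x‖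
      else L0 X ε (n + 1) v a k) x := by
  obtain ⟨Ω, _, μ, f, h1, h2, h3, h4, h5⟩ := h
  let g : Ω → ℕ → X := fun o j => Nat.casesOn j x (fun j => f o j)
  have hb : ∀ j < n + 1, ∑ o, μ o • g o j = x := by
    intro j hj
    cases j with
    | zero => simp only [g, Nat.rec_zero, ← Finset.sum_smul, h2, one_smul]
    | succ j => exact h4 j (by omega)
  refine ⟨Ω, inferInstance, μ, g, h1, h2, ?_, hb, ?_⟩
  · intro o j
    cases j with
    | zero => exact hx
    | succ j => exact h3 o j
  · intro v a k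
    cases k with
    | zero =>
      simp only [if_true]
      have e : v + (∑ j ∈ range (n + 1), a j) • x =
          ∑ o, μ o • (v + ∑ j ∈ range (n + 1), a j • g o j) := by
        simp only [smul_add, Finset.sum_add_distrib, ← Finset.sum_smul, h2, one_smul,
          Finset.smul_sum]
        congr 1
        rw [Finset.sum_comm, Finset.sum_smul]
        refine Finset.sum_congr rfl fun j hj => ?_
        conv_lhs => rw [← hb j (mem_range.1 hj)]
        rw [Finset.smul_sum]
        exact Finset.sum_congr rfl fun o _ => smul_comm _ _ _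
      rw [e]
      refine (norm_sum_le _ _).trans (le_of_eq (Finset.sum_congr rfl fun o _ => ?_))
      rw [norm_smul, Real.norm_eq_abs, abs_of_nonneg (h1 o)]
    | succ k =>
      simp only [Nat.succ_ne_zero, if_false]
      have := h5 (v + a 0 • x) (fun j => a (j + 1)) k
      have e1 : L0 X ε (n + 1) v a (k + 1) = L0 X ε n (v + a 0 • x) (fun j => a (j + 1)) k := by
        simp only [L0, Finset.sum_filter, Finset.sum_range_succ' _ n]
        simp
      rw [e1]
      refine this.trans (le_of_eq (Finset.sum_congr rfl fun o _ => ?_))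
      rw [Finset.sum_range_succ' _ n]
      congr 2
      simp only [g, Nat.rec_zero]
      abel

theorem der_ball (ε : ℝ) (n : ℕ) : ∀ x ∈ Der X ε n, ‖x‖ ≤ 1 := by
  induction n with
  | zero => intro x hx; rw [Der_zero] at hx; simpa using hx
  | succ n ih =>
    intro x hx
    rw [Der_succ] at hx
    have : x ∈ Metric.closedBall (0 : X) 1 := by
      refine convexHull_min ?_ (convex_closedBall _ _) hx
      rintro z ⟨a, ha, b, hb, -, rfl⟩
      have := norm_add_le a b
      rw [mem_closedBall_zero_iff, norm_smul, show ‖(1 / 2 : ℝ)‖ = 1 / 2 by norm_num]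
      linarith [ih a ha, ih b hb]
    simpa using this

theorem der_R (ε : ℝ) (n : ℕ) : ∀ x ∈ Der X ε n, R n (L0 X ε n) x := by
  induction n with
  | zero =>
    intro x _
    refine ⟨Unit, inferInstance, fun _ => 1, fun _ _ => 0, by simp, by simp, by simp, by simp, ?_⟩
    intro v a k
    simp [L0]
  | succ n ih =>
    intro x hx
    rw [Der_succ] at hx
    refine convexHull_min (t := {z | R (n + 1) (L0 X ε (n + 1)) z}) ?_ ?_ hx
    · rintro z ⟨a, ha, b, hb, hab, rfl⟩
      have h := ((ih a ha).cons (der_ball ε n a ha)).mix ((ih b hb).cons (der_ball ε n b hb))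
        (s := 1 / 2) (t := 1 / 2) (by norm_num) (by norm_num) (by norm_num)
      rw [← smul_add] at h
      refine h.mono fun v c k => ?_
      by_cases hk : k = 0
      · subst hk
        simp only [if_true, L0, Nat.zero_le, Finset.filter_true_of_mem, implies_true]
        set s := ∑ j ∈ range (n + 1), c j
        have h1 : ‖s • (a - b)‖ ≤ ‖v + s • a‖ + ‖v + s • b‖ := by
          rw [show s • (a - b) = (v + s • a) - (v + s • b) by rw [smul_sub]; abel]
          exact norm_sub_le _ _
        rw [norm_smul, Real.norm_eq_abs] at h1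
        nlinarith [abs_nonneg s]
      · simp only [hk, if_false]; linarith
    · intro a ha b hb s t hs ht hst
      refine (R.mix ha hb hs ht hst).mono fun v c k => le_of_eq ?_
      rw [← add_mul, hst, one_mul]

end MS

open MS in
theorem martS (X : Type*) [NormedAddCommGroup X] [NormedSpace ℝ X] : MartS X := by
  intro p K ε hp hε hMT n ⟨z, hz⟩
  obtain ⟨Ω, _, μ, f, h1, h2, h3, -, h5⟩ := der_R ε n z hz
  have hp0 : 0 < p := by linarith
  let T : Ω → C00 → X := fun o a => ∑ j ∈ range n, a j • f o j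
  have hTadd : ∀ o a b, T o (a + b) = T o a + T o b := fun o a b => by
    simp [T, add_smul, Finset.sum_add_distrib]
  have hTsub : ∀ o a b, T o (a - b) = T o a - T o b := fun o a b => by
    simp [T, sub_smul, Finset.sum_sub_distrib]
  have hTsm : ∀ o (c : ℝ) a, T o (c • a) = c • T o a := fun o c a => by
    simp [T, Finset.smul_sum, mul_smul]
  let F : C00 → ℝ := fun a => ∑ o, μ o * ‖T o a‖ ^ p
  have hF0 : ∀ a, 0 ≤ F a := fun a =>
    Finset.sum_nonneg fun o _ => mul_nonneg (h1 o) (Real.rpow_nonneg (norm_nonneg _) _)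
  have hw : ∀ o (r : ℝ), 0 ≤ r → μ o * r ^ p = (μ o ^ (1 / p) * r) ^ p := fun o r hr => by
    rw [Real.mul_rpow (Real.rpow_nonneg (h1 o) _) hr, ← Real.rpow_mul (h1 o),
      one_div_mul_cancel hp0.ne', Real.rpow_one]
  have htri : ∀ a b, F (a + b) ^ (1 / p) ≤ F a ^ (1 / p) + F b ^ (1 / p) := fun a b => by
    have h := Real.Lp_add_le_of_nonneg univ (f := fun o => μ o ^ (1 / p) * ‖T o a‖)
      (g := fun o => μ o ^ (1 / p) * ‖T o b‖) hp.le
      (fun o _ => mul_nonneg (Real.rpow_nonneg (h1 o) _) (norm_nonneg _))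
      (fun o _ => mul_nonneg (Real.rpow_nonneg (h1 o) _) (norm_nonneg _))
    simp only [← hw _ _ (norm_nonneg _)] at h
    refine le_trans (Real.rpow_le_rpow (hF0 _) ?_ (by positivity)) h
    refine Finset.sum_le_sum fun o _ => ?_
    rw [← mul_add, ← hw _ _ (by positivity), hTadd]
    exact mul_le_mul_of_nonneg_left
      (Real.rpow_le_rpow (norm_nonneg _) (norm_add_le _ _) hp0.le) (h1 o)
  have hsm : ∀ (c : ℝ) a, F (c • a) ^ (1 / p) = ‖c‖ * F a ^ (1 / p) := fun c a => by
    have e : F (c • a) = ‖c‖ ^ p * F a := by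
      simp only [F, hTsm, norm_smul, Finset.mul_sum]
      refine Finset.sum_congr rfl fun o _ => ?_
      rw [Real.mul_rpow (norm_nonneg _) (norm_nonneg _)]; ring
    rw [e, Real.mul_rpow (Real.rpow_nonneg (norm_nonneg _) _) (hF0 a), ← Real.rpow_mul (norm_nonneg _),
      mul_one_div_cancel hp0.ne', Real.rpow_one]
  let N : Seminorm ℝ C00 := Seminorm.of (fun a => F a ^ (1 / p)) htri hsm
  have hN : ∀ a, N a = F a ^ (1 / p) := fun a => rfl
  have hNp : ∀ a, N a ^ p = F a := fun a => by
    rw [hN, ← Real.rpow_mul (hF0 a), one_div_mul_cancel hp0.ne', Real.rpow_one]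
  refine ⟨N, ?_, ?_, ?_⟩
  · intro S _ _ w P a1 a2 a3 a4 a5 g t ht
    have key : ∀ Q : Matrix S S ℝ, ∑ i, ∑ j, w i * Q i j * N (g j - g i) ^ p =
        ∑ o, μ o * ∑ i, ∑ j, w i * Q i j * ‖T o (g j) - T o (g i)‖ ^ p := fun Q => by
      simp only [hNp, F, hTsub, Finset.mul_sum]
      rw [Finset.sum_comm (s := (univ : Finset Ω))]
      refine Finset.sum_congr rfl fun i _ => ?_
      rw [Finset.sum_comm (s := (univ : Finset Ω))]
      refine Finset.sum_congr rfl fun j _ => Finset.sum_congr rfl fun o _ => by ring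
    rw [key, key, Finset.mul_sum]
    refine Finset.sum_le_sum fun o _ => ?_
    have := mul_le_mul_of_nonneg_left (hMT S w P a1 a2 a3 a4 a5 (fun i => T o (g i)) t ht) (h1 o)
    linarith
  · intro j
    rw [hN]
    apply Real.rpow_le_one (hF0 _) _ (by positivity)
    refine le_trans (Finset.sum_le_sum fun o _ => mul_le_of_le_one_right (h1 o) ?_) h2.le
    apply Real.rpow_le_one (norm_nonneg _) _ hp0.le
    have e : T o (Finsupp.single j 1) = if j ∈ range n then f o j else 0 := by
      simp only [T, Finsupp.single_apply, ite_smul, one_smul, zero_smul]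
      rw [Finset.sum_ite_eq]
    rw [e]
    split_ifs
    · exact h3 o j
    · simp
  · intro a ha k
    have e : tl k a = ∑ j ∈ (range n).filter (fun j => k ≤ j), a j := by
      unfold tl
      apply Finset.sum_subset
      · intro j hj
        simp only [mem_filter, mem_range] at hj ⊢
        exact ⟨ha j hj.1, hj.2⟩
      · intro j hj hj'
        simp only [mem_filter, not_and] at hj hj'
        by_contra h0
        exact hj' (Finsupp.mem_support_iff.2 h0) hj.2
    have h6 := h5 0 a k
    simp only [L0, zero_add] at h6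
    rw [e, hN]
    exact h6.trans (Real.arith_mean_le_rpow_mean univ μ (fun o => ‖T o a‖) (fun o _ => h1 o) h2
      (fun o _ => norm_nonneg _) hp.le)

end Crest.Agent.R140
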