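import Crest.Agent.R140.Defs

set_option autoImplicit false

open Finset Filter Topology Function

namespace Crest.Agent.R140

namespace NJ

open Classical

theorem alt_le {A : Seminorm ℝ C00} (h1 : ∀ j, A (Finsupp.single j 1) ≤ 1) (n m : ℕ) :
    A (alt (n + m)) ≤ A (alt n) + m := by
  induction m with
  | zero => simp
  | succ m ih =>
    have e : alt (n + (m + 1)) = alt (n + m) + ((-1 : ℝ) ^ (n + m)) • Finsupp.single (n + m) 1 := by
      unfold alt
      rw [← add_assoc, sum_range_succ, Finsupp.smul_single, smul_eq_mul, mul_one]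
    rw [e]
    refine (map_add_le_add A _ _).trans ?_
    rw [map_smul_eq_mul, norm_pow, norm_neg, norm_one, one_pow, one_mul]
    have := h1 (n + m)
    push_cast
    linarith

theorem kappa {A : Seminorm ℝ C00} {θ : ℝ} (hθ : 0 < θ) (h1 : ∀ j, A (Finsupp.single j 1) ≤ 1) :
    ∃ κ : ℝ, 0 < κ ∧ ∀ t : ℕ, ∃ (K : ℕ) (R : ℝ), 5 * t + 11 ≤ K ∧ 0 < R ∧ A (alt (2 * K)) ≤ R ∧
      (κ * t * R ≤ t * A (alt (2 * (K - 5 * t - 10))) - 2 * t ∨ κ * t * R ≤ θ * t / 2) := by
  by_cases hb : ∃ R : ℝ, ∀ K, A (alt (2 * K)) ≤ R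
  · obtain ⟨R, hR⟩ := hb
    have hR0 : 0 ≤ R := (apply_nonneg A _).trans (hR 0)
    refine ⟨θ / (2 * (R + 1)), by positivity, fun t => ⟨5 * t + 11, R + 1, le_rfl, by positivity,
      (hR _).trans (by linarith), Or.inr (le_of_eq ?_)⟩⟩
    field_simp
  · push Not at hb
    refine ⟨1 / 2, by norm_num, fun t => ?_⟩
    obtain ⟨K, hK⟩ := hb (20 * t + 44)
    have h2 := alt_le h1 0 (2 * K)
    have h0 : A (alt 0) = 0 := by simp [alt]
    rw [h0, zero_add, zero_add] at h2
    have h3 : 5 * t + 11 ≤ K := by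
      have : ((20 * t + 44 : ℕ) : ℝ) < ((2 * K : ℕ) : ℝ) := by push_cast at h2 ⊢; linarith
      have := Nat.cast_lt.1 this
      omega
    have ht : (0 : ℝ) ≤ t := by positivity
    refine ⟨K, _, h3, by linarith, le_rfl, Or.inl ?_⟩
    have h4 := alt_le h1 (2 * (K - 5 * t - 10)) (10 * t + 20)
    rw [show 2 * (K - 5 * t - 10) + (10 * t + 20) = 2 * K by omega] at h4
    push_cast at h4
    have h5 : 1 / 2 * A (alt (2 * K)) ≤ A (alt (2 * (K - 5 * t - 10))) - 2 := by linarith
    have := mul_le_mul_of_nonneg_left h5 ht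
    linarith

theorem walk_bij {P Ω : Type} (T : P → Equiv.Perm Ω) (π : ℕ → P) (s : ℕ) :
    Bijective (fun ω => walk T π ω s) := by
  induction s with
  | zero => exact bijective_id
  | succ s ih => exact (T (π s)).bijective.comp ih

theorem clash {d t : ℕ} (π0 : Pat d) (s : ℕ) (hs : s + 1 < t) :
    ((univ.filter (fun π : Fin t → Pat d =>
      (ext π0 π s).2.1 = (ext π0 π (s + 1)).1)).card : ℝ) * d ≤ (Fintype.card (Pat d) : ℝ) ^ t := by
  set B := univ.filter (fun π : Fin t → Pat d => (ext π0 π s).2.1 = (ext π0 π (s + 1)).1) with hB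
  have hne : (⟨s, by omega⟩ : Fin t) ≠ ⟨s + 1, hs⟩ := by simp
  have key : (B ×ˢ (univ : Finset (Fin d))).card ≤ (univ : Finset (Fin t → Pat d)).card := by
    refine card_le_card_of_injOn
      (fun z => update z.1 ⟨s + 1, hs⟩ (z.2, (z.1 ⟨s + 1, hs⟩).2)) (fun _ _ => mem_univ _) ?_
    rintro ⟨π, k⟩ h ⟨π', k'⟩ h' heq
    have h1 := (mem_filter.1 (mem_product.1 h).1).2
    have h2 := (mem_filter.1 (mem_product.1 h').1).2
    simp only [ext, dif_pos hs, dif_pos (show s < t by omega)] at h1 h2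
    have e1 := congrFun heq ⟨s + 1, hs⟩
    have e2 := congrFun heq ⟨s, by omega⟩
    simp only [update_self, Prod.mk.injEq] at e1
    simp only [update_of_ne hne] at e2
    refine Prod.ext (funext fun j => ?_) e1.1
    by_cases hj : j = ⟨s + 1, hs⟩
    · subst hj
      exact Prod.ext (by rw [← h1, ← h2, e2]) e1.2
    · have e3 := congrFun heq j
      simpa only [update_of_ne hj] using e3
  rw [card_product, card_univ, card_univ, Fintype.card_fin, Fintype.card_fun,
    Fintype.card_fin] at key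
  exact_mod_cast key

theorem rel_rev {d : ℕ} (π : Pat d) (a b : ℕ) : rel d π.rev b a ↔ ¬ rel d π a b := by
  unfold rel Pat.rev
  rcases π with ⟨i, i', σ⟩
  cases σ <;> simp <;> omega

theorem rel_mono {d : ℕ} (π : Pat d) (a a' b b' : ℕ) (ha : a' ≤ a) (hb : b ≤ b')
    (h : rel d π a b) : rel d π a' b' := by
  unfold rel at *
  have h1 : (a' + π.1) / d ≤ (a + π.1) / d := Nat.div_le_div_right (by omega)
  have h2 : (b + π.2.1) / d ≤ (b' + π.2.1) / d := Nat.div_le_div_right (by omega)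
  rcases h with h | ⟨h, h'⟩
  · left; omega
  · rcases (h1.trans (h.le.trans h2)).lt_or_eq with h3 | h3
    · exact Or.inl h3
    · exact Or.inr ⟨h3, h'⟩

theorem rev_rev {d : ℕ} (π : Pat d) : π.rev.rev = π := by
  rcases π with ⟨i, i', σ⟩; simp [Pat.rev]

theorem good_rev {d M : ℕ} (π : Pat d) (x y : ℕ → ℕ) (h : Good M (rel d π) x y) :
    Good M (rel d π.rev) y x := by
  refine ⟨h.2.1, h.1, fun a ha b hb => ⟨fun hr => ?_, fun hr => ?_⟩⟩
  · exact (h.2.2 b hb a ha).2 ((rel_rev π b a).1 hr)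
  · exact (h.2.2 b hb a ha).1 (by rw [rel_rev] at hr; exact not_not.1 hr)

theorem lab_rev {d K : ℕ} (π : Pat d) (x y : ℕ → ℕ) : lab d K π.rev y x = - lab d K π x y := by
  unfold lab Pat.rev
  rw [← sum_neg_distrib]
  exact sum_congr rfl fun c _ => by simp

end NJ

open NJ Classical in
theorem noJames (hO : Osc) (hC : ChainEx) (hZ : Cover) (hL : LabLe) (hP : PathOsc) : NoJames := by
  intro A p K0 θ hp hK0 hθ hMT hJ hM
  obtain ⟨κ, hκ, hκ'⟩ := kappa hθ hJ.1
  -- choice of `t`
  obtain ⟨t, ht1, ht2⟩ : ∃ t : ℕ, 1 ≤ t ∧ 2 * K0 ^ p * t < (κ * t) ^ p := by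
    have h1 : Tendsto (fun t : ℕ => (t : ℝ) ^ (p - 1)) atTop atTop :=
      (tendsto_rpow_atTop (by linarith)).comp tendsto_natCast_atTop_atTop
    obtain ⟨t, a1, a2⟩ := ((h1.eventually (eventually_gt_atTop (2 * K0 ^ p / κ ^ p))).and
      (eventually_ge_atTop 1)).exists
    refine ⟨t, a2, ?_⟩
    have t0 : (0 : ℝ) < t := by exact_mod_cast a2
    have k0 : 0 < κ ^ p := Real.rpow_pos_of_pos hκ p
    rw [div_lt_iff₀ k0] at a1
    rw [Real.mul_rpow hκ.le t0.le, show (t : ℝ) ^ p = t ^ (p - 1) * t by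
      rw [Real.rpow_sub_one t0.ne']; field_simp]
    nlinarith
  have t0 : (0 : ℝ) < t := by exact_mod_cast ht1
  obtain ⟨K, R, hK, hR, hR1, hR2⟩ := hκ' t
  set d := 4 * t with hd
  have hd0 : 0 < d := by omega
  let π0 : Pat d := (⟨0, hd0⟩, ⟨0, hd0⟩, true)
  obtain ⟨Ω, _, _, x, T, hT, hbad⟩ := hC (Pat d) Pat.rev (rel d) rev_rev rel_rev rel_mono (K * d)
    (1 / (4 * t)) (by positivity)
  let y : Pat d → Ω → (ℕ →₀ ℤ) := fun π ω =>
    if Good (K * d) (rel d π) (x ω) (x (T π ω)) then lab d K π (x ω) (x (T π ω)) else 0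
  have hy : ∀ π ω, y π.rev (T π ω) = - y π ω := by
    intro π ω
    have e : T π.rev (T π ω) = ω := by rw [hT]; simp
    simp only [y, e]
    by_cases h : Good (K * d) (rel d π) (x ω) (x (T π ω))
    · rw [if_pos h, if_pos (good_rev _ _ _ h), lab_rev]
    · rw [if_neg h, if_neg (fun h' => h (by simpa [rev_rev] using good_rev _ _ _ h')), neg_zero]
  have main := hZ A p K0 hp hK0 hMT (Pat d) Ω π0 Pat.rev T y rev_rev hT hy t ht1
  have hPc : (0 : ℝ) < Fintype.card (Pat d) := by
    have : Nonempty (Pat d) := ⟨π0⟩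
    exact_mod_cast Fintype.card_pos
  have hΩ : (0 : ℝ) < Fintype.card Ω := by exact_mod_cast Fintype.card_pos
  have hRp : 0 < R ^ p := Real.rpow_pos_of_pos hR p
  -- upper bound
  have up : (∑ ω, ∑ π, A (toR (y π ω)) ^ p) / Fintype.card (Pat d) ≤ Fintype.card Ω * R ^ p := by
    rw [div_le_iff₀ hPc]
    calc ∑ ω, ∑ π, A (toR (y π ω)) ^ p ≤ ∑ _ω : Ω, ∑ _π : Pat d, R ^ p := by
          refine sum_le_sum fun ω _ => sum_le_sum fun π _ => ?_
          refine Real.rpow_le_rpow (apply_nonneg _ _) ?_ (by linarith)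
          simp only [y]
          split_ifs with h
          · exact (hL A hM d K π _ _ h).trans hR1
          · simp [hR.le]
      _ = _ := by simp only [sum_const, card_univ, nsmul_eq_mul]; ring
  -- lower bound
  let bE : ℕ → Ω → (Fin t → Pat d) → Prop := fun s ω π =>
    ¬ Good (K * d) (rel d (ext π0 π s)) (x (walk T (ext π0 π) ω s)) (x (walk T (ext π0 π) ω (s + 1)))
  let bC : ℕ → (Fin t → Pat d) → Prop := fun s π =>
    s + 1 < t ∧ (ext π0 π s).2.1 = (ext π0 π (s + 1)).1
  set c : ℝ := (κ * t * R) ^ p with hc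
  have hc0 : 0 ≤ c := Real.rpow_nonneg (by positivity) p
  have pt : ∀ ω (π : Fin t → Pat d),
      c * (1 - ∑ s ∈ range t, (if bE s ω π then (1 : ℝ) else 0) -
        ∑ s ∈ range t, (if bC s π then (1 : ℝ) else 0)) ≤
      A (toR (∑ s ∈ range t, y (ext π0 π s) (walk T (ext π0 π) ω s))) ^ p := by
    intro ω π
    have n1 : 0 ≤ ∑ s ∈ range t, (if bE s ω π then (1 : ℝ) else 0) :=
      sum_nonneg fun s _ => by split_ifs <;> norm_num
    have n2 : 0 ≤ ∑ s ∈ range t, (if bC s π then (1 : ℝ) else 0) :=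
      sum_nonneg fun s _ => by split_ifs <;> norm_num
    have n3 : 0 ≤ A (toR (∑ s ∈ range t, y (ext π0 π s) (walk T (ext π0 π) ω s))) ^ p :=
      Real.rpow_nonneg (apply_nonneg _ _) p
    by_cases h1 : ∃ s ∈ range t, bE s ω π
    · obtain ⟨s, hs, hb⟩ := h1
      have : (1 : ℝ) ≤ ∑ s ∈ range t, (if bE s ω π then (1 : ℝ) else 0) := by
        have := single_le_sum (f := fun s => if bE s ω π then (1 : ℝ) else 0)
          (fun s _ => by split_ifs <;> norm_num) hs
        simpa [hb] using this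
      nlinarith
    by_cases h2 : ∃ s ∈ range t, bC s π
    · obtain ⟨s, hs, hb⟩ := h2
      have : (1 : ℝ) ≤ ∑ s ∈ range t, (if bC s π then (1 : ℝ) else 0) := by
        have := single_le_sum (f := fun s => if bC s π then (1 : ℝ) else 0)
          (fun s _ => by split_ifs <;> norm_num) hs
        simpa [hb] using this
      nlinarith
    have g1 : ∀ s < t, Good (K * d) (rel d (ext π0 π s)) (x (walk T (ext π0 π) ω s))
        (x (walk T (ext π0 π) ω (s + 1))) := fun s hs => by
      by_contra h; exact h1 ⟨s, mem_range.2 hs, h⟩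
    have g2 : ∀ s, s + 1 < t → (ext π0 π s).2.1 ≠ (ext π0 π (s + 1)).1 := fun s hs h =>
      h2 ⟨s, mem_range.2 (by omega), hs, h⟩
    obtain ⟨z, α, z1, z2, z3, z4, z5⟩ := hP d K t (ext π0 π)
      (fun s => x (walk T (ext π0 π) ω s)) ht1 hK g1 g2
    have e : ∑ s ∈ range t, y (ext π0 π s) (walk T (ext π0 π) ω s) =
        ∑ s ∈ range t, lab d K (ext π0 π s) (x (walk T (ext π0 π) ω s))
          (x (walk T (ext π0 π) ω (s + 1))) := by
      refine sum_congr rfl fun s hs => ?_
      simp only [y]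
      exact if_pos (g1 s (mem_range.1 hs))
    obtain ⟨o1, o2⟩ := hO A θ hθ.le hJ hM _ z _ t α (by omega) z1 z2 z3 z4 z5
    rw [e]
    have : c ≤ A (toR (∑ s ∈ range t, lab d K (ext π0 π s) (x (walk T (ext π0 π) ω s))
          (x (walk T (ext π0 π) ω (s + 1))))) ^ p := by
      refine Real.rpow_le_rpow (by positivity) ?_ (by linarith)
      rcases hR2 with h | h <;> linarith
    nlinarith
  set PT : ℝ := (Fintype.card (Pat d) : ℝ) ^ t with hPT
  have hPT0 : 0 < PT := by positivity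
  have cardF : (Fintype.card (Fin t → Pat d) : ℝ) = PT := by
    rw [Fintype.card_fun, Fintype.card_fin]; push_cast; rfl
  have cE : ∀ s, ∑ ω, ∑ π : Fin t → Pat d, (if bE s ω π then (1 : ℝ) else 0) ≤
      1 / (4 * t) * Fintype.card Ω * PT := by
    intro s
    rw [sum_comm]
    calc ∑ π : Fin t → Pat d, ∑ ω, (if bE s ω π then (1 : ℝ) else 0)
        ≤ ∑ _π : Fin t → Pat d, 1 / (4 * t) * (Fintype.card Ω : ℝ) := by
          refine sum_le_sum fun π _ => ?_
          refine le_of_eq_of_le ?_ (hbad (ext π0 π s))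
          rw [card_filter]
          push_cast
          exact (walk_bij T (ext π0 π) s).sum_comp (fun ω => if ¬ Good (K * d) (rel d (ext π0 π s))
            (x ω) (x (T (ext π0 π s) ω)) then (1 : ℝ) else 0)
      _ = _ := by rw [sum_const, card_univ, nsmul_eq_mul, cardF]; ring
  have cC : ∀ s, ∑ π : Fin t → Pat d, (if bC s π then (1 : ℝ) else 0) ≤ 1 / (4 * t) * PT := by
    intro s
    by_cases hs : s + 1 < t
    · have h := clash π0 s hs
      rw [card_filter] at h
      push_cast at h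
      simp only [bC, hs, true_and]
      rw [one_div, inv_mul_eq_div, le_div_iff₀ (by positivity)]
      have hd' : (d : ℝ) = 4 * t := by rw [hd]; push_cast; ring
      rw [hd'] at h
      exact h
    · simp only [bC, hs, false_and, if_false, sum_const_zero]
      positivity
  have low : c * (Fintype.card Ω * PT / 2) ≤ ∑ ω, ∑ π : Fin t → Pat d,
      A (toR (∑ s ∈ range t, y (ext π0 π s) (walk T (ext π0 π) ω s))) ^ p := by
    refine le_trans ?_ (sum_le_sum fun ω _ => sum_le_sum fun π _ => pt ω π)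
    simp only [← mul_sum]
    refine mul_le_mul_of_nonneg_left ?_ hc0
    simp only [sum_sub_distrib]
    have e1 : ∑ ω, ∑ π : Fin t → Pat d, ∑ s ∈ range t, (if bE s ω π then (1 : ℝ) else 0) ≤
        Fintype.card Ω * PT / 4 := by
      calc ∑ ω, ∑ π : Fin t → Pat d, ∑ s ∈ range t, (if bE s ω π then (1 : ℝ) else 0)
          = ∑ ω, ∑ s ∈ range t, ∑ π : Fin t → Pat d, (if bE s ω π then (1 : ℝ) else 0) :=
            sum_congr rfl fun ω _ => sum_comm
        _ = ∑ s ∈ range t, ∑ ω, ∑ π : Fin t → Pat d, (if bE s ω π then (1 : ℝ) else 0) := sum_comm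
        _ ≤ ∑ _s ∈ range t, 1 / (4 * t) * (Fintype.card Ω : ℝ) * PT := sum_le_sum fun s _ => cE s
        _ = _ := by rw [sum_const, card_range, nsmul_eq_mul]; field_simp
    have e2 : ∑ _ω : Ω, ∑ π : Fin t → Pat d, ∑ s ∈ range t, (if bC s π then (1 : ℝ) else 0) ≤
        Fintype.card Ω * PT / 4 := by
      have : ∑ π : Fin t → Pat d, ∑ s ∈ range t, (if bC s π then (1 : ℝ) else 0) ≤ PT / 4 := by
        rw [sum_comm]
        calc _ ≤ ∑ _s ∈ range t, 1 / (4 * t) * PT := sum_le_sum fun s _ => cC s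
          _ = _ := by rw [sum_const, card_range, nsmul_eq_mul]; field_simp
      rw [sum_const, card_univ, nsmul_eq_mul, mul_div_assoc]
      exact mul_le_mul_of_nonneg_left this hΩ.le
    simp only [sum_const, card_univ, nsmul_eq_mul, mul_one, cardF] at e1 e2 ⊢
    linarith
  have fin1 : c * (Fintype.card Ω / 2) ≤ K0 ^ p * t * (Fintype.card Ω * R ^ p) := by
    refine le_trans ?_ (main.trans (mul_le_mul_of_nonneg_left up
      (by have := Real.rpow_pos_of_pos hK0 p; positivity)))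
    rw [le_div_iff₀ hPT0]
    refine le_of_eq_of_le ?_ low
    ring
  rw [hc, Real.mul_rpow (by positivity) hR.le] at fin1
  have := mul_pos hΩ hRp
  nlinarith

end Crest.Agent.R140
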