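import Crest.Agent.R140.Path

set_option autoImplicit false

open Finset Filter Topology Function

namespace Crest.Agent.R140

namespace OS

open Classical

theorem map_apply (μ : ℕ → ℕ) (a : C00) (j : ℕ) :
    Finsupp.mapDomain μ a j =
      Finsupp.linearCombination ℝ (fun s => if μ s = j then (1 : ℝ) else 0) a := by
  induction a using Finsupp.induction_linear with
  | zero => simp
  | add f g hf hg => rw [Finsupp.mapDomain_add, Finsupp.add_apply, hf, hg, map_add]
  | single s c => simp [Finsupp.single_apply]

theorem lc_congr_sub (f g h : ℕ → ℝ) (a : C00) (e : ∀ s, f s = g s - h s) :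
    Finsupp.linearCombination ℝ f a =
      Finsupp.linearCombination ℝ g a - Finsupp.linearCombination ℝ h a := by
  induction a using Finsupp.induction_linear with
  | zero => simp
  | add f g hf hg => simp only [map_add, hf, hg]; ring
  | single s c => simp [e]; ring

theorem single_le {A : Seminorm ℝ C00} (h1 : ∀ j, A (Finsupp.single j 1) ≤ 1) (j : ℕ) (c : ℝ) :
    A (Finsupp.single j c) ≤ |c| := by
  have : Finsupp.single j c = c • Finsupp.single j (1 : ℝ) := by simp
  rw [this, map_smul_eq_mul, Real.norm_eq_abs]
  exact mul_le_of_le_one_right (abs_nonneg c) (h1 j)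

theorem map_alt (μ : ℕ → ℕ) (n : ℕ) :
    Finsupp.mapDomain μ (alt n) = ∑ j ∈ range n, Finsupp.single (μ j) ((-1 : ℝ) ^ j) := by
  unfold alt
  rw [Finsupp.mapDomain_finset_sum]
  simp

theorem alt_two (f : ℕ → C00) (K : ℕ) :
    ∑ j ∈ range (2 * K), ((-1 : ℝ) ^ j) • f j = ∑ c ∈ range K, (f (2 * c) - f (2 * c + 1)) := by
  induction K with
  | zero => simp
  | succ K ih =>
    rw [show 2 * (K + 1) = 2 * K + 1 + 1 by ring, sum_range_succ, sum_range_succ, ih,
      sum_range_succ, pow_succ, pow_mul]
    simp [sub_eq_add_neg, add_assoc]

theorem two_le {A : Seminorm ℝ C00} (hM : Merge A) (K : ℕ) (u v : ℕ → ℕ)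
    (h1 : ∀ c < K, u c ≤ v c) (h2 : ∀ c, c + 1 < K → v c ≤ u (c + 1)) :
    A (∑ c ∈ range K, (Finsupp.single (u c) (1 : ℝ) - Finsupp.single (v c) 1)) ≤
      A (alt (2 * K)) := by
  let μ0 : ℕ → ℕ := fun j => if Even j then u (j / 2) else v (j / 2)
  let μ : ℕ → ℕ := fun j => μ0 (min j (2 * K - 1))
  have hμ : Monotone μ := by
    refine monotone_nat_of_le_succ fun j => ?_
    simp only [μ]
    by_cases hj : j + 1 ≤ 2 * K - 1
    · rw [min_eq_left hj, min_eq_left (by omega)]
      by_cases he : Even j
      · have e1 : ¬ Even (j + 1) := by rw [Nat.even_add_one]; simpa using he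
        have e2 : (j + 1) / 2 = j / 2 := by obtain ⟨k, rfl⟩ := he; omega
        simp only [μ0, if_pos he, if_neg e1, e2]
        exact h1 _ (by omega)
      · have e1 : Even (j + 1) := by rw [Nat.even_add_one]; exact he
        have e2 : (j + 1) / 2 = j / 2 + 1 := by
          rw [Nat.not_even_iff_odd] at he; obtain ⟨k, rfl⟩ := he; omega
        simp only [μ0, if_neg he, if_pos e1, e2]
        refine h2 _ ?_
        rw [Nat.not_even_iff_odd] at he; obtain ⟨k, rfl⟩ := he; omega
    · rw [min_eq_right (by omega), min_eq_right (by omega)]
  refine le_of_eq_of_le ?_ (hM μ hμ _)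
  congr 1
  rw [map_alt]
  have := alt_two (fun j => Finsupp.single (μ j) (1 : ℝ)) K
  simp only [Finsupp.smul_single, smul_eq_mul, mul_one] at this
  rw [this]
  refine sum_congr rfl fun c hc => ?_
  have hc' := mem_range.1 hc
  have e1 : μ (2 * c) = u c := by
    simp only [μ, μ0]; rw [min_eq_left (by omega), if_pos (by simp)]; simp
  have e2 : μ (2 * c + 1) = v c := by
    simp only [μ, μ0]; rw [min_eq_left (by omega), if_neg (by simp)]; congr 1; omega
  rw [e1, e2]

end OS

open OS PA Classical in
theorem osc : Osc := by
  intro A θ hθ hJ hM a z n t α hn hz h0 h1 htl hc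
  have ht : 0 ≤ t := h0.trans h1
  have tl1 : ∀ s, tl (s + 1) a = - cum s a := by
    intro s
    rw [tl_eq, cum_eq, lc_congr_sub _ (fun j => if 0 ≤ j then (1 : ℝ) else 0)
      (fun j => if j ≤ s then (1 : ℝ) else 0), ← tl_eq, htl, zero_sub]
    intro j
    by_cases h : j ≤ s
    · rw [if_neg (by omega), if_pos h]; simp
    · rw [if_pos (by omega), if_neg h]; simp
  refine ⟨?_, ?_⟩
  · have zm : ∀ i j, i ≤ j → j ≤ n → z i ≤ z j := by
      intro i j hij hj
      induction j, hij using Nat.le_induction with
      | base => exact le_rfl
      | succ j hij ih => exact (ih (by omega)).trans (hz j (by omega)).le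
    let μ : ℕ → ℕ := fun s => ((range (n + 1)).filter (fun j => z j < s)).card
    have hμ : Monotone μ := fun s s' h =>
      card_le_card fun j hj => mem_filter.2 ⟨(mem_filter.1 hj).1, (mem_filter.1 hj).2.trans_le h⟩
    have hμ1 : ∀ s j, j ≤ n → (μ s ≤ j ↔ s ≤ z j) := by
      intro s j hj
      constructor
      · intro h
        by_contra hc'
        have : (range (j + 1)).card ≤ μ s := card_le_card fun i hi => by
          have := mem_range.1 hi
          exact mem_filter.2 ⟨mem_range.2 (by omega), by have := zm i j (by omega) hj; omega⟩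
        rw [card_range] at this
        omega
      · intro h
        have : μ s ≤ (range j).card := card_le_card fun i hi => by
          obtain ⟨a1, a2⟩ := mem_filter.1 hi
          have := mem_range.1 a1
          rw [mem_range]
          by_contra hc'
          have := zm j i (by omega) (by omega)
          omega
        rwa [card_range] at this
    have hμ2 : ∀ s, μ s ≤ n + 1 := fun s => (card_filter_le _ _).trans (card_range _).le
    have key : Finsupp.mapDomain μ a = Finsupp.single 0 α +
        (-t) • Finsupp.mapDomain (fun j => j + 1) (alt n) + Finsupp.single (n + 1) (- cum (z n) a) := by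
      ext j
      rw [map_apply, map_alt]
      simp only [Finsupp.add_apply, Finsupp.smul_apply, Finsupp.finset_sum_apply,
        Finsupp.single_apply, smul_eq_mul]
      rcases j with _ | j
      · simp only [if_true, Nat.succ_ne_zero, if_false, sum_const_zero, mul_zero, add_zero]
        have := hc 0 (by omega)
        rw [if_pos (by simp), cum_eq] at this
        rw [← this]
        congr 2
        funext s
        have := hμ1 s 0 (by omega)
        by_cases h : s ≤ z 0
        · rw [if_pos h, if_pos (by omega)]
        · rw [if_neg h, if_neg (by omega)]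
      · simp only [(Nat.succ_ne_zero j).symm, if_false, zero_add, Nat.add_right_cancel_iff,
          sum_ite_eq', mem_range]
        rcases lt_trichotomy j n with h | h | h
        · rw [if_pos h, if_neg (by omega), add_zero,
            lc_congr_sub _ (fun s => if s ≤ z (j + 1) then (1 : ℝ) else 0)
            (fun s => if s ≤ z j then (1 : ℝ) else 0), ← cum_eq, ← cum_eq, hc _ (by omega),
            hc _ (by omega)]
          · by_cases he : Even j
            · rw [if_pos he, if_neg (by rw [Nat.even_add_one]; simpa using he), he.neg_one_pow]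
              ring
            · rw [if_neg he, if_pos (by rw [Nat.even_add_one]; exact he),
                (Nat.not_even_iff_odd.1 he).neg_one_pow]
              ring
          · intro s
            have a1 := hμ1 s j (by omega)
            have a2 := hμ1 s (j + 1) (by omega)
            have a3 := hz j h
            split_ifs <;> first | omega | norm_num
        · subst h
          rw [if_neg (lt_irrefl _), if_pos rfl, mul_zero, zero_add, ← tl1, tl_eq]
          congr 2
          funext s
          have a1 := hμ1 s j le_rfl
          have a2 := hμ2 s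
          split_ifs <;> first | omega | norm_num
        · rw [if_neg (by omega), if_neg (by omega), mul_zero, add_zero]
          have : (fun s => if μ s = j + 1 then (1 : ℝ) else 0) = 0 := by
            funext s
            have := hμ2 s
            rw [if_neg (by omega)]; rfl
          rw [this]
          simp [Finsupp.linearCombination_apply]
    have m1 := hM μ hμ a
    have m2 : A (alt n) ≤ A (Finsupp.mapDomain (fun j => j + 1) (alt n)) := by
      have := hM (fun j => j - 1) (fun a b h => Nat.sub_le_sub_right h 1)
        (Finsupp.mapDomain (fun j => j + 1) (alt n))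
      rw [← Finsupp.mapDomain_comp] at this
      have e : ((fun j => j - 1) ∘ fun j : ℕ => j + 1) = id := by funext j; simp
      rwa [e, Finsupp.mapDomain_id] at this
    have e : (-t) • Finsupp.mapDomain (fun j => j + 1) (alt n) =
        Finsupp.mapDomain μ a - Finsupp.single 0 α - Finsupp.single (n + 1) (- cum (z n) a) := by
      rw [key]; abel
    have m3 : A ((-t) • Finsupp.mapDomain (fun j => j + 1) (alt n)) ≤
        A (Finsupp.mapDomain μ a) + |α| + |- cum (z n) a| := by
      rw [e]
      refine (map_sub_le_add A _ _).trans (add_le_add ((map_sub_le_add A _ _).trans ?_)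
        (single_le hJ.1 _ _))
      have := single_le hJ.1 0 α
      linarith
    rw [map_smul_eq_mul, norm_neg, Real.norm_of_nonneg ht, abs_of_nonneg h0, abs_neg] at m3
    have m4 : |cum (z n) a| ≤ t := by
      rw [hc n le_rfl, abs_le]
      split_ifs <;> constructor <;> linarith
    have := mul_le_mul_of_nonneg_left m2 ht
    linarith
  · have a1 := hJ.2 a (z 0 + 1)
    have a2 := hJ.2 a (z 1 + 1)
    rw [tl1, hc 0 (by omega), if_pos (by simp), abs_neg, abs_of_nonneg h0] at a1
    rw [tl1, hc 1 hn, if_neg (by simp), abs_neg, abs_of_nonpos (by linarith)] at a2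
    linarith

open OS PA Classical in
theorem labLe : LabLe := by
  intro A hM d K π x y hG
  obtain ⟨-, -, hxy⟩ := hG
  have a1 := π.1.2
  have a2 := π.2.1.2
  have hd : 0 < d := by omega
  have idx : ∀ c < K, ∀ i : ℕ, c * d - i < K * d := by
    intro c hc i
    have : c * d + d ≤ K * d := by nlinarith
    omega
  have blk : ∀ (c : ℕ) (i : Fin d), (c * d - i + i) / d = c := by
    intro c i
    have := i.2
    rcases c with _ | c
    · simp [Nat.div_eq_of_lt this]
    · rw [Nat.sub_add_cancel (by nlinarith), Nat.mul_div_cancel _ hd]
  have e : toR (lab d K π x y) = ∑ c ∈ range K,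
      (Finsupp.single (y (c * d - π.2.1)) (1 : ℝ) - Finsupp.single (x (c * d - π.1)) 1) := by
    unfold lab
    rw [map_sum]
    exact sum_congr rfl fun c _ => by rw [map_sub, toR_single, toR_single]
  rw [e]
  by_cases hσ : π.2.2 = true
  · rw [← map_neg_eq_map A, ← sum_neg_distrib]
    simp only [neg_sub]
    refine two_le hM K _ _ (fun c hc => ?_) (fun c hc => ?_)
    · refine ((hxy _ (idx c hc _) _ (idx c hc _)).1 ?_).le
      unfold rel; rw [blk, blk]; exact Or.inr ⟨rfl, hσ⟩
    · refine ((hxy _ (idx _ hc _) _ (idx c (by omega) _)).2 ?_).le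
      unfold rel; rw [blk, blk]; omega
  · refine two_le hM K _ _ (fun c hc => ?_) (fun c hc => ?_)
    · refine ((hxy _ (idx c hc _) _ (idx c hc _)).2 ?_).le
      unfold rel; rw [blk, blk]; simp [hσ]
    · refine ((hxy _ (idx c (by omega) _) _ (idx _ hc _)).1 ?_).le
      unfold rel; rw [blk, blk]; omega

end Crest.Agent.R140
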