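import Crest.Agent.R140.NoJames

set_option autoImplicit false

open Finset Filter Topology Function

namespace Crest.Agent.R140

namespace PA

open Classical

theorem cum_eq (z : ℕ) (a : C00) :
    cum z a = Finsupp.linearCombination ℝ (fun j => if j ≤ z then (1 : ℝ) else 0) a := by
  unfold cum
  rw [Finsupp.linearCombination_apply, Finsupp.sum, sum_filter]
  exact sum_congr rfl fun j _ => by split_ifs <;> simp

theorem tl_eq (k : ℕ) (a : C00) :
    tl k a = Finsupp.linearCombination ℝ (fun j => if k ≤ j then (1 : ℝ) else 0) a := by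
  unfold tl
  rw [Finsupp.linearCombination_apply, Finsupp.sum, sum_filter]
  exact sum_congr rfl fun j _ => by split_ifs <;> simp

theorem toR_single (u : ℕ) : toR (Finsupp.single u 1) = Finsupp.single u 1 := by
  simp [toR]

theorem lc_lab (f : ℕ → ℝ) (d K : ℕ) (π : Pat d) (x y : ℕ → ℕ) :
    Finsupp.linearCombination ℝ f (toR (lab d K π x y)) =
      ∑ c ∈ range K, f (y (c * d - π.2.1)) - ∑ c ∈ range K, f (x (c * d - π.1)) := by
  unfold lab
  rw [map_sum, map_sum, ← sum_sub_distrib]
  refine sum_congr rfl fun c _ => ?_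
  rw [map_sub, map_sub, toR_single, toR_single]
  simp

theorem count (K m : ℕ) (hm : m ≤ K) (p : ℕ → Prop) [DecidablePred p]
    (h : ∀ c < K, p c ↔ c < m) : ∑ c ∈ range K, (if p c then (1 : ℝ) else 0) = m := by
  rw [← sum_filter, sum_const, nsmul_eq_mul, mul_one]
  congr 1
  have : (range K).filter p = range m := by
    ext c
    simp only [mem_filter, mem_range]
    constructor
    · rintro ⟨h1, h2⟩; exact (h c h1).1 h2
    · intro h1; exact ⟨by omega, (h c (by omega)).2 h1⟩
  rw [this, card_range]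

def sg {d : ℕ} (π : Pat d) : ℕ := if π.2.2 = true then 1 else 0

def nxt {d : ℕ} (π : Pat d) (b : ℕ) : ℕ := d * ((b + π.2.1) / d + sg π) - π.1

theorem sg_le {d : ℕ} (π : Pat d) : sg π ≤ 1 := by unfold sg; split_ifs <;> omega

theorem div_eq {d u β : ℕ} (h1 : d * β ≤ u) (h2 : u < d * (β + 1)) : u / d = β := by
  have hd : 0 < d := by
    rcases Nat.eq_zero_or_pos d with h | h
    · subst h; simp at h2
    · exact h
  exact (Nat.div_eq_iff hd).2 ⟨by rw [mul_comm]; exact h1, by
    have : β * d + d = d * (β + 1) := by ring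
    omega⟩

theorem edge {d K : ℕ} (π : Pat d) {x y : ℕ → ℕ} (hG : Good (K * d) (rel d π) x y) {q b : ℕ}
    (hq : y b ≤ q)
    (hq' : q = y b ∨ (q < y (b + 1) ∧ (b + 1 + π.2.1) / d = (b + π.2.1) / d))
    (h1 : 1 ≤ (b + π.2.1) / d) (h2 : (b + π.2.1) / d + 2 ≤ K) :
    x (nxt π b - 1) < q ∧ q < x (nxt π b) ∧
      cum q (toR (lab d K π x y)) = if π.2.2 = true then 0 else 1 := by
  obtain ⟨hx, hy, hxy⟩ := hG
  have hi := π.1.2
  have hi' := π.2.1.2
  have hd : 0 < d := by omega
  set β := (b + π.2.1) / d with hβ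
  have hs := sg_le π
  have b1 : d * β ≤ b + π.2.1 := Nat.mul_div_le _ _
  have b2 : b + π.2.1 < d * (β + 1) := Nat.lt_mul_div_succ _ hd
  have m1 : d * (β + sg π) = d * β + d * sg π := by ring
  have m2 : d * (β + 1) = d * β + d := by ring
  have m3 : d * sg π ≤ d := by nlinarith
  have m4 : d ≤ d * β := by nlinarith
  have m5 : d * β + 2 * d ≤ K * d := by nlinarith
  have hg : nxt π b + π.1 = d * (β + sg π) := by unfold nxt; rw [← hβ]; omega
  set g := nxt π b with hgdef
  have g1 : 1 ≤ g := by omega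
  have g2 : g < K * d := by omega
  have bM : b < K * d := by omega
  have r1 : rel d π (g - 1) b := by
    unfold rel
    rw [← hβ]
    by_cases hσ : π.2.2 = true
    · have : sg π = 1 := by simp [sg, hσ]
      rw [this] at hg
      exact Or.inr ⟨div_eq (by omega) (by omega), hσ⟩
    · have : sg π = 0 := by simp [sg, hσ]
      rw [this] at hg
      left
      rw [Nat.div_lt_iff_lt_mul hd, mul_comm]
      simp only [add_zero] at hg
      omega
  have r2 : ∀ b', (b' + π.2.1) / d = β → ¬ rel d π g b' := by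
    intro b' hb'
    unfold rel
    rw [hb', hg, Nat.mul_div_cancel_left _ hd]
    by_cases hσ : π.2.2 = true
    · have : sg π = 1 := by simp [sg, hσ]
      rw [this]; omega
    · have : sg π = 0 := by simp [sg, hσ]
      rw [this]; simp [hσ]
  have c1 : x (g - 1) < q := lt_of_lt_of_le ((hxy _ (by omega) _ bM).1 r1) hq
  have c2 : q < x g := by
    rcases hq' with h | ⟨h, h'⟩
    · rw [h]; exact (hxy _ g2 _ bM).2 (r2 b rfl)
    · exact h.trans ((hxy _ g2 _ (by omega)).2 (r2 _ h'))
  refine ⟨c1, c2, ?_⟩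
  have idx : ∀ c < K, ∀ i : ℕ, c * d - i < K * d := by
    intro c hc i
    have : c * d + d ≤ K * d := by nlinarith
    omega
  rw [cum_eq, lc_lab, count K (β + 1) (by omega), count K (β + sg π) (by omega)]
  · unfold sg; split_ifs <;> simp
  · intro c hc
    have hcd : c < β + sg π ↔ c * d < d * (β + sg π) := by
      rw [mul_comm c d]; exact (Nat.mul_lt_mul_left hd).symm
    constructor
    · intro h
      by_contra hc'
      have : g ≤ c * d - π.1 := by rw [hcd] at hc'; omega
      rcases this.eq_or_lt with h3 | h3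
      · rw [← h3] at h; omega
      · have := hx _ _ h3 (idx c hc _); omega
    · intro h
      have : c * d - π.1 ≤ g - 1 := by rw [hcd] at h; omega
      rcases this.eq_or_lt with h3 | h3
      · rw [h3]; omega
      · have := hx _ _ h3 (by omega); omega
  · intro c hc
    have hcd : c < β + 1 ↔ c * d < d * (β + 1) := by
      rw [mul_comm c d]; exact (Nat.mul_lt_mul_left hd).symm
    have hcd' : c < β + 1 ↔ c * d ≤ d * β := by
      rw [mul_comm c d, Nat.lt_succ_iff]; exact (Nat.mul_le_mul_left_iff hd).symm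
    constructor
    · intro h
      by_contra hc'
      have h4 : b + 1 ≤ c * d - π.2.1 := by rw [hcd] at hc'; omega
      rcases hq' with h5 | ⟨h5, -⟩
      · have := hy _ _ h4 (idx c hc _); omega
      · rcases h4.eq_or_lt with h3 | h3
        · rw [← h3] at h; omega
        · have := hy _ _ h3 (idx c hc _); omega
    · intro h
      have : c * d - π.2.1 ≤ b := by rw [hcd'] at h; omega
      rcases this.eq_or_lt with h3 | h3
      · rw [h3]; omega
      · have := hy _ _ h3 bM; omega

/-- next block number -/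
theorem nxt_blk {d : ℕ} (π : Pat d) (i : Fin d) (hi : i ≠ π.1) (b : ℕ)
    (h1 : 1 ≤ (b + π.2.1) / d) :
    (nxt π b - 1 + 1 + i) / d = (nxt π b - 1 + i) / d ∧
      (b + π.2.1) / d ≤ (nxt π b - 1 + i) / d + 1 ∧
      (nxt π b - 1 + i) / d ≤ (b + π.2.1) / d + 1 := by
  have a1 := π.1.2
  have a2 := i.2
  have hd : 0 < d := by omega
  have hs := sg_le π
  set β := (b + π.2.1) / d with hβ
  have m4 : d ≤ d * (β + sg π) := by nlinarith
  have hg : nxt π b + π.1 = d * (β + sg π) := by unfold nxt; rw [← hβ]; omega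
  have hne : (i : ℕ) ≠ π.1 := fun h => hi (Fin.ext h)
  obtain ⟨γ, hγ⟩ : ∃ γ, β + sg π = γ + 1 := ⟨β + sg π - 1, by omega⟩
  rw [hγ] at hg
  have m1 : d * (γ + 1) = d * γ + d := by ring
  have m2 : d * (γ + 1 + 1) = d * γ + d + d := by ring
  rcases lt_or_gt_of_ne hne with h | h
  · rw [div_eq (β := γ) (by omega) (by omega), div_eq (β := γ) (by omega) (by omega)]
    omega
  · rw [div_eq (β := γ + 1) (by omega) (by omega), div_eq (β := γ + 1) (by omega) (by omega)]
    omega

def ix {d : ℕ} (π : ℕ → Pat d) (t : ℕ) : ℕ → ℕ :=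
  Nat.rec (fun b => b) (fun t ih b => ih (nxt (π t) b - 1)) t

theorem ix_succ {d : ℕ} (π : ℕ → Pat d) (t b : ℕ) : ix π (t + 1) b = ix π t (nxt (π t) b - 1) := rfl

theorem ix_add {d : ℕ} (π : ℕ → Pat d) (t : ℕ) : ∀ b, 2 * t * d ≤ b →
    ix π t (b + d) = ix π t b + d := by
  induction t with
  | zero => intro b _; rfl
  | succ t ih =>
    intro b hb
    have a1 := (π t).1.2
    have a2 := (π t).2.1.2
    have hd : 0 < d := by omega
    have e1 : (b + d + (π t).2.1) / d = (b + (π t).2.1) / d + 1 := by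
      rw [show b + d + (π t).2.1 = b + (π t).2.1 + d by ring, Nat.add_div_right _ hd]
    set β := (b + (π t).2.1) / d with hβ
    have b2 : b + (π t).2.1 < d * (β + 1) := Nat.lt_mul_div_succ _ hd
    have m1 : d * (β + sg (π t)) = d * β + d * sg (π t) := by ring
    have m2 : d * (β + 1) = d * β + d := by ring
    have m3 : d * (β + 1 + sg (π t)) = d * β + d + d * sg (π t) := by ring
    have m4 : 2 * (t + 1) * d = 2 * t * d + 2 * d := by ring
    have e2 : nxt (π t) (b + d) - 1 = nxt (π t) b - 1 + d := by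
      unfold nxt; rw [e1, ← hβ]; omega
    rw [ix_succ, ix_succ, e2]
    apply ih
    unfold nxt; rw [← hβ]; omega

theorem fwd {d K : ℕ} (π : ℕ → Pat d) (X : ℕ → ℕ → ℕ) (t : ℕ) : ∀ (b q : ℕ),
    (∀ s < t + 1, Good (K * d) (rel d (π s)) (X s) (X (s + 1))) →
    (∀ s, s + 1 < t + 1 → (π s).2.1 ≠ (π (s + 1)).1) →
    X (t + 1) b ≤ q →
    (q = X (t + 1) b ∨ (q < X (t + 1) (b + 1) ∧ (b + 1 + (π t).2.1) / d = (b + (π t).2.1) / d)) →
    t + 1 ≤ (b + (π t).2.1) / d → (b + (π t).2.1) / d + t + 2 ≤ K →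
    X 0 (ix π (t + 1) b) < q ∧ q < X 0 (ix π (t + 1) b + 1) ∧
      cum q (toR (∑ s ∈ range (t + 1), lab d K (π s) (X s) (X (s + 1)))) =
        ∑ s ∈ range (t + 1), (if (π s).2.2 = true then (0 : ℝ) else 1) ∧
      (b + (π t).2.1) / d ≤ (ix π (t + 1) b + 1 + (π 0).1) / d + t ∧
      (ix π (t + 1) b + 1 + (π 0).1) / d ≤ (b + (π t).2.1) / d + t + 1 := by
  induction t with
  | zero =>
    intro b q hG _ h1 h2 h3 h4
    obtain ⟨e1, e2, e3⟩ := edge (π 0) (hG 0 (by omega)) h1 h2 h3 h4
    have a1 := (π 0).1.2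
    have hd : 0 < d := by omega
    have hs := sg_le (π 0)
    have m4 : d ≤ d * ((b + (π 0).2.1) / d + sg (π 0)) := by nlinarith
    have hg : nxt (π 0) b - 1 + 1 + (π 0).1 = d * ((b + (π 0).2.1) / d + sg (π 0)) := by
      unfold nxt; omega
    have hg' : nxt (π 0) b - 1 + 1 = nxt (π 0) b := by unfold nxt; omega
    have e0 : ix π (0 + 1) b = nxt (π 0) b - 1 := rfl
    rw [e0, hg, hg', Nat.mul_div_cancel_left _ hd]
    refine ⟨e1, e2, by simpa using e3, by omega, by omega⟩
  | succ t ih =>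
    intro b q hG hph h1 h2 h3 h4
    obtain ⟨e1, e2, e3⟩ := edge (π (t + 1)) (hG (t + 1) (by omega)) h1 h2 (by omega) (by omega)
    obtain ⟨f1, f2, f3⟩ := nxt_blk (π (t + 1)) (π t).2.1 (hph t (by omega)) b (by omega)
    have a1 := (π (t + 1)).1.2
    have hd : 0 < d := by omega
    have m4 : d ≤ d * ((b + (π (t + 1)).2.1) / d + sg (π (t + 1))) := by nlinarith
    have hg' : nxt (π (t + 1)) b - 1 + 1 = nxt (π (t + 1)) b := by unfold nxt; omega
    obtain ⟨g1, g2, g3, g4, g5⟩ := ih (nxt (π (t + 1)) b - 1) q (fun s hs => hG s (by omega))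
      (fun s hs => hph s (by omega)) e1.le (Or.inr ⟨by rw [hg']; exact e2, f1⟩) (by omega) (by omega)
    rw [ix_succ]
    refine ⟨g1, g2, ?_, by omega, by omega⟩
    rw [sum_range_succ _ (t + 1), sum_range_succ _ (t + 1), map_add, cum_eq, map_add, ← cum_eq,
      ← cum_eq, g3, e3]

end PA

open PA NJ Classical in
theorem pathOsc : PathOsc := by
  intro d K t π X ht hK hG hph
  obtain ⟨t, rfl⟩ : ∃ t', t = t' + 1 := ⟨t - 1, by omega⟩
  have a1 := (π 0).1.2
  have hd : 0 < d := by omega
  set a := toR (∑ s ∈ range (t + 1), lab d K (π s) (X s) (X (s + 1))) with ha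
  set α : ℝ := ∑ s ∈ range (t + 1), (if (π s).2.2 = true then (0 : ℝ) else 1) with hα
  set b0 := (2 * t + 6) * d with hb0
  have hblk : ∀ c, (b0 + c * d + (π t).2.1) / d = 2 * t + 6 + c := by
    intro c
    have := (π t).2.1.2
    refine div_eq ?_ ?_
    · rw [hb0]; nlinarith
    · rw [hb0]; nlinarith
  have hix : ∀ c, ix π (t + 1) (b0 + c * d) = ix π (t + 1) b0 + c * d := by
    intro c
    induction c with
    | zero => simp
    | succ c ih =>
      rw [show b0 + (c + 1) * d = b0 + c * d + d by ring, ix_add, ih]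
      · ring
      · rw [hb0]; nlinarith
  have F : ∀ c, c + 5 * t + 15 ≤ K →
      X 0 (ix π (t + 1) b0 + c * d) < X (t + 1) (b0 + c * d) ∧
      X (t + 1) (b0 + c * d) < X 0 (ix π (t + 1) b0 + c * d + 1) ∧
      cum (X (t + 1) (b0 + c * d)) a = α ∧
      t + 6 + c ≤ (ix π (t + 1) b0 + c * d + 1 + (π 0).1) / d ∧
      (ix π (t + 1) b0 + c * d + 1 + (π 0).1) / d ≤ 3 * t + 7 + c := by
    intro c hc
    have := fwd π X t (b0 + c * d) _ hG hph le_rfl (Or.inl rfl) (by rw [hblk]; omega)
      (by rw [hblk]; omega)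
    rw [hblk, hix] at this
    obtain ⟨g1, g2, g3, g4, g5⟩ := this
    exact ⟨g1, g2, g3, by omega, by omega⟩
  have B : ∀ c, c + 5 * t + 15 ≤ K → cum (X 0 (ix π (t + 1) b0 + c * d + 1)) a = α - (t + 1 : ℕ) := by
    intro c hc
    obtain ⟨-, -, -, g4, g5⟩ := F c hc
    have := fwd (K := K) (fun s => (π (t - s)).rev) (fun s => X (t + 1 - s)) t
      (ix π (t + 1) b0 + c * d + 1) (X 0 (ix π (t + 1) b0 + c * d + 1))
      (fun s hs => by
        have := good_rev _ _ _ (hG (t - s) (by omega))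
        rw [show t - s + 1 = t + 1 - s by omega] at this
        rw [show t + 1 - (s + 1) = t - s by omega]
        exact this)
      (fun s hs => by
        have := hph (t - (s + 1)) (by omega)
        rw [show t - (s + 1) + 1 = t - s by omega] at this
        exact this.symm)
      (by simp) (Or.inl (by simp)) (by simp only [Nat.sub_self, Pat.rev]; omega)
      (by simp only [Nat.sub_self, Pat.rev]; omega)
    obtain ⟨-, -, g3, -, -⟩ := this
    have e1 : ∑ s ∈ range (t + 1), lab d K (π (t - s)).rev (X (t + 1 - s)) (X (t + 1 - (s + 1))) =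
        - ∑ s ∈ range (t + 1), lab d K (π s) (X s) (X (s + 1)) := by
      rw [← sum_neg_distrib, ← sum_range_reflect _ (t + 1)]
      refine sum_congr rfl fun s hs => ?_
      have := mem_range.1 hs
      rw [show t - (t + 1 - 1 - s) = s by omega, show t + 1 - (t + 1 - 1 - s) = s + 1 by omega,
        show t + 1 - (t + 1 - 1 - s + 1) = s by omega, lab_rev]
    have e2 : ∑ s ∈ range (t + 1), (if ((π (t - s)).rev).2.2 = true then (0 : ℝ) else 1) =
        (t + 1 : ℕ) - α := by
      rw [hα, eq_sub_iff_add_eq, ← sum_range_reflect _ (t + 1), ← sum_add_distrib]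
      rw [show ((t + 1 : ℕ) : ℝ) = ∑ _s ∈ range (t + 1), (1 : ℝ) by simp]
      refine sum_congr rfl fun s hs => ?_
      have := mem_range.1 hs
      rw [show t - (t + 1 - 1 - s) = s by omega]
      unfold Pat.rev
      cases (π s).2.2 <;> simp
    rw [e1, e2, map_neg, cum_eq, map_neg, ← cum_eq, ← ha] at g3
    linarith
  refine ⟨fun j => if Even j then X (t + 1) (b0 + j / 2 * d)
    else X 0 (ix π (t + 1) b0 + j / 2 * d + 1), α, fun j hj => ?_, ?_, ?_, ?_, fun j hj => ?_⟩
  · by_cases he : Even j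
    · have h1 : ¬ Even (j + 1) := by rw [Nat.even_add_one]; simpa using he
      have h2 : (j + 1) / 2 = j / 2 := by obtain ⟨k, rfl⟩ := he; omega
      simp only [if_pos he, if_neg h1, h2]
      exact (F (j / 2) (by omega)).2.1
    · have h1 : Even (j + 1) := by rw [Nat.even_add_one]; exact he
      have h2 : (j + 1) / 2 = j / 2 + 1 := by
        rw [Nat.not_even_iff_odd] at he; obtain ⟨k, rfl⟩ := he; omega
      simp only [if_neg he, if_pos h1, h2]
      have h3 : j / 2 + 1 + 5 * t + 15 ≤ K := by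
        rw [Nat.not_even_iff_odd] at he; obtain ⟨k, rfl⟩ := he; omega
      obtain ⟨g1, -, -, -, g5⟩ := F (j / 2 + 1) h3
      refine lt_of_le_of_lt ?_ g1
      have h4 : ix π (t + 1) b0 + j / 2 * d + 1 ≤ ix π (t + 1) b0 + (j / 2 + 1) * d := by
        nlinarith
      rcases h4.eq_or_lt with h5 | h5
      · rw [h5]
      · refine ((hG 0 (by omega)).1 _ _ h5 ?_).le
        have h6 := Nat.lt_mul_div_succ (ix π (t + 1) b0 + (j / 2 + 1) * d + 1 + (π 0).1) hd
        have h7 : d * ((ix π (t + 1) b0 + (j / 2 + 1) * d + 1 + (π 0).1) / d + 1) ≤ d * K :=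
          Nat.mul_le_mul_left _ (by omega)
        rw [mul_comm K d]
        omega
  · exact sum_nonneg fun s _ => by split_ifs <;> norm_num
  · rw [hα, show ((t + 1 : ℕ) : ℝ) = ∑ _s ∈ range (t + 1), (1 : ℝ) by simp]
    exact sum_le_sum fun s _ => by split_ifs <;> norm_num
  · rw [ha, tl_eq, map_sum, map_sum]
    refine sum_eq_zero fun s _ => ?_
    rw [lc_lab]; simp
  · by_cases he : Even j
    · simp only [if_pos he]
      exact (F (j / 2) (by omega)).2.2.1
    · simp only [if_neg he]
      exact B (j / 2) (by omega)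

end Crest.Agent.R140
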