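import Crest.Agent.R140.Defs

set_option autoImplicit false

open Finset Filter Topology Function Pointwise

namespace Crest.Agent.R140

namespace RN

variable {X : Type*} [NormedAddCommGroup X] [NormedSpace ℝ X]

theorem der_convex (ε : ℝ) (n : ℕ) : Convex ℝ (Der X ε n) := by
  cases n with
  | zero => exact convex_closedBall _ _
  | succ n => rw [Der_succ]; exact convex_convexHull _ _

theorem der_neg (ε : ℝ) (n : ℕ) : ∀ x ∈ Der X ε n, -x ∈ Der X ε n := by
  induction n with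
  | zero => intro x hx; rw [Der_zero] at *; simpa using hx
  | succ n ih =>
    intro x hx
    rw [Der_succ] at *
    set S : Set X := {z | ∃ x ∈ Der X ε n, ∃ y ∈ Der X ε n, ε ≤ ‖x - y‖ ∧ z = (1 / 2 : ℝ) • (x + y)}
      with hS
    have h1 : convexHull ℝ S ⊆ {z | -z ∈ convexHull ℝ S} := by
      apply convexHull_min
      · rintro z ⟨a, ha, b, hb, hab, rfl⟩
        apply subset_convexHull
        refine ⟨-a, ih a ha, -b, ih b hb, ?_, ?_⟩
        · rw [show -a - -b = -(a - b) by abel, norm_neg]; exact hab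
        · rw [← smul_neg]; congr 1; abel
      · intro a ha b hb s t hs ht hst
        have := convex_convexHull ℝ S ha hb hs ht hst
        simp only [Set.mem_setOf_eq]
        rw [show -(s • a + t • b) = s • -a + t • -b by simp [add_comm]]
        exact this
    exact h1 hx

theorem der_zero_mem (ε : ℝ) (n : ℕ) (h : (Der X ε n).Nonempty) : (0 : X) ∈ Der X ε n := by
  obtain ⟨x, hx⟩ := h
  have := der_convex ε n hx (der_neg ε n x hx) (a := 1 / 2) (b := 1 / 2) (by norm_num) (by norm_num)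
    (by norm_num)
  simpa using this

theorem exq (ε : ℝ) (hε : 0 < ε) (j : ℕ) : ∃ q : Seminorm ℝ X, (∀ x, q x ≤ ‖x‖) ∧
    ((Der X ε j).Nonempty →
      (∀ (x : X) (t : ℝ), 0 < t → q x < ε * t → ∃ a ∈ Der X ε j, ‖t⁻¹ • x - a‖ ≤ ε) ∧
      (∀ (x : X) (t : ℝ) (a : X), 0 < t → a ∈ Der X ε j → ‖t⁻¹ • x - a‖ ≤ ε → q x ≤ ε * t)) := by
  by_cases hne : (Der X ε j).Nonempty
  swap
  · exact ⟨0, fun x => by simp, fun h => absurd h hne⟩
  set C : Set X := Der X ε j + Metric.closedBall 0 ε with hC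
  have h0 := der_zero_mem ε j hne
  have hsub : Metric.closedBall (0 : X) ε ⊆ C := fun u hu => ⟨0, h0, u, hu, by simp⟩
  have hconv : Convex ℝ C := (der_convex ε j).add (convex_closedBall _ _)
  have hbal : Balanced ℝ C := by
    rw [balanced_iff_neg_mem hconv]
    rintro z ⟨a, ha, u, hu, rfl⟩
    refine ⟨-a, der_neg ε j a ha, -u, by simpa using hu, ?_⟩
    simp [add_comm]
  have habs0 : Absorbent ℝ (Metric.closedBall (0 : X) ε) :=
    absorbent_nhds_zero (Metric.closedBall_mem_nhds 0 hε)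
  have habs : Absorbent ℝ C := habs0.mono hsub
  have hC0 : (0 : X) ∈ C := hsub (by simp [hε.le])
  let p : Seminorm ℝ X := gaugeSeminorm hbal hconv habs
  have hp : ∀ x, p x = gauge C x := fun x => rfl
  let e : NNReal := ⟨ε, hε.le⟩
  refine ⟨e • p, fun x => ?_, fun _ => ⟨fun x t ht hx => ?_, fun x t a ht ha hx => ?_⟩⟩
  · have h1 : gauge C x ≤ ‖x‖ / ε := by
      rw [← gauge_closedBall hε.le]; exact gauge_mono habs0 hsub x
    change ε * p x ≤ ‖x‖
    rw [hp]
    rw [le_div_iff₀ hε] at h1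
    linarith
  · change ε * p x < ε * t at hx
    have h1 : p x < t := lt_of_mul_lt_mul_left hx hε.le
    have h2 : gauge C (t⁻¹ • x) < 1 := by
      rw [← hp, map_smul_eq_mul, Real.norm_eq_abs, abs_of_pos (inv_pos.2 ht), inv_mul_lt_iff₀ ht]
      simpa using h1
    obtain ⟨a, ha, u, hu, hau⟩ := gauge_lt_one_subset_self hconv hC0 habs h2
    refine ⟨a, ha, ?_⟩
    rw [← hau]
    simpa using hu
  · change ε * p x ≤ ε * t
    have h2 : gauge C (t⁻¹ • x) ≤ 1 := by
      apply gauge_le_one_of_mem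
      exact ⟨a, ha, t⁻¹ • x - a, by simpa using hx, by simp⟩
    rw [← hp, map_smul_eq_mul, Real.norm_eq_abs, abs_of_pos (inv_pos.2 ht), inv_mul_le_iff₀ ht] at h2
    apply mul_le_mul_of_nonneg_left _ hε.le
    simpa using h2

theorem defect_nonneg (q : Seminorm ℝ X) (x y : X) :
    (q x - q y) ^ 2 / 4 ≤ (q x ^ 2 + q y ^ 2) / 2 - q ((1 / 2 : ℝ) • (x + y)) ^ 2 := by
  have h1 : q ((1 / 2 : ℝ) • (x + y)) ≤ (q x + q y) / 2 := by
    rw [map_smul_eq_mul]
    have := map_add_le_add q x y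
    norm_num
    linarith
  have h2 : 0 ≤ q ((1 / 2 : ℝ) • (x + y)) := apply_nonneg _ _
  nlinarith

theorem l2 (q : ℕ → Seminorm ℝ X) (hq : ∀ i x, q i x ≤ ‖x‖) : ∃ N : Seminorm ℝ X,
    (∀ x, ‖x‖ ≤ N x ∧ N x ≤ 2 * ‖x‖) ∧ ∀ (i : ℕ) (x y : X),
      (1 / 2 / 2 ^ i : ℝ) * ((q i x ^ 2 + q i y ^ 2) / 2 - q i ((1 / 2 : ℝ) • (x + y)) ^ 2) ≤
        (N x ^ 2 + N y ^ 2) / 2 - N ((1 / 2 : ℝ) • (x + y)) ^ 2 := by
  set c : ℕ → ℝ := fun i => 1 / 2 / 2 ^ i with hc
  have hc0 : ∀ i, 0 ≤ c i := fun i => by simp only [hc]; positivity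
  have hcs : HasSum c 1 := hasSum_geometric_two' 1
  have hle : ∀ i x, c i * q i x ^ 2 ≤ c i * ‖x‖ ^ 2 := fun i x =>
    mul_le_mul_of_nonneg_left (pow_le_pow_left₀ (apply_nonneg _ _) (hq i x) 2) (hc0 i)
  have hs : ∀ x, Summable (fun i => c i * q i x ^ 2) := fun x =>
    Summable.of_nonneg_of_le (fun i => mul_nonneg (hc0 i) (sq_nonneg _)) (fun i => hle i x)
      (hcs.summable.mul_right _)
  set F : X → ℝ := fun x => ‖x‖ ^ 2 + ∑' i, c i * q i x ^ 2 with hF
  have hF1 : ∀ x, ‖x‖ ^ 2 ≤ F x := fun x =>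
    le_add_of_nonneg_right (tsum_nonneg fun i => mul_nonneg (hc0 i) (sq_nonneg _))
  have hF0 : ∀ x, 0 ≤ F x := fun x => (sq_nonneg _).trans (hF1 x)
  have hF2 : ∀ x, F x ≤ 2 * ‖x‖ ^ 2 := fun x => by
    have h1 : ∑' i, c i * q i x ^ 2 ≤ ∑' i, c i * ‖x‖ ^ 2 :=
      (hs x).tsum_le_tsum (fun i => hle i x) (hcs.summable.mul_right _)
    rw [tsum_mul_right, hcs.tsum_eq] at h1
    simp only [hF]; linarith
  have hsm : ∀ (a : ℝ) (x : X), F (a • x) = a ^ 2 * F x := fun a x => by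
    simp only [hF, map_smul_eq_mul, norm_smul, Real.norm_eq_abs, mul_pow, sq_abs]
    rw [mul_add, ← tsum_mul_left]
    congr 1
    exact tsum_congr fun i => by ring
  have hadd : ∀ (x y : X) (s t : ℝ), 0 < s → 0 < t →
      F (x + y) ≤ (1 + t / s) * F x + (1 + s / t) * F y := fun x y s t hs0 ht0 => by
    have key : ∀ a b r : ℝ, 0 ≤ r → r ≤ a + b → r ^ 2 ≤ (1 + t / s) * a ^ 2 + (1 + s / t) * b ^ 2 := by
      intro a b r hr hrab
      have h1 : r ^ 2 ≤ (a + b) ^ 2 := pow_le_pow_left₀ hr hrab 2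
      have h2 : (1 + t / s) * a ^ 2 + (1 + s / t) * b ^ 2 - (a + b) ^ 2 = (t * a - s * b) ^ 2 / (s * t) := by
        field_simp; ring
      have h3 : 0 ≤ (t * a - s * b) ^ 2 / (s * t) := by positivity
      linarith
    have h1 : ∑' i, c i * q i (x + y) ^ 2 ≤
        ∑' i, ((1 + t / s) * (c i * q i x ^ 2) + (1 + s / t) * (c i * q i y ^ 2)) := by
      apply (hs _).tsum_le_tsum _ (((hs x).mul_left _).add ((hs y).mul_left _))
      intro i
      have := mul_le_mul_of_nonneg_left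
        (key (q i x) (q i y) (q i (x + y)) (apply_nonneg _ _) (map_add_le_add _ _ _)) (hc0 i)
      linarith
    rw [((hs x).mul_left _).tsum_add ((hs y).mul_left _), tsum_mul_left, tsum_mul_left] at h1
    have h2 := key ‖x‖ ‖y‖ ‖x + y‖ (norm_nonneg _) (norm_add_le _ _)
    simp only [hF]
    linarith
  have hzero : ∀ x, Real.sqrt (F x) = 0 → x = 0 := fun x hx => by
    have h1 : F x ≤ 0 := Real.sqrt_eq_zero'.1 hx
    have h2 : ‖x‖ ^ 2 ≤ 0 := (hF1 x).trans h1
    have h3 : ‖x‖ = 0 := by nlinarith [norm_nonneg x]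
    exact norm_eq_zero.1 h3
  have htri : ∀ x y, Real.sqrt (F (x + y)) ≤ Real.sqrt (F x) + Real.sqrt (F y) := fun x y => by
    rcases (Real.sqrt_nonneg (F x)).eq_or_lt with hx | hx
    · rw [hzero x hx.symm, zero_add]; linarith [Real.sqrt_nonneg (F (0 : X))]
    rcases (Real.sqrt_nonneg (F y)).eq_or_lt with hy | hy
    · rw [hzero y hy.symm, add_zero]; linarith [Real.sqrt_nonneg (F (0 : X))]
    have h1 := hadd x y _ _ hx hy
    apply Real.sqrt_le_iff.2 ⟨by positivity, h1.trans (le_of_eq ?_)⟩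
    set s := Real.sqrt (F x)
    set t := Real.sqrt (F y)
    have e1 : F x = s ^ 2 := (Real.sq_sqrt (hF0 x)).symm
    have e2 : F y = t ^ 2 := (Real.sq_sqrt (hF0 y)).symm
    rw [e1, e2]; field_simp; ring
  let N : Seminorm ℝ X := Seminorm.of (fun x => Real.sqrt (F x)) htri (fun a x => by
    rw [hsm, Real.sqrt_mul (sq_nonneg a), Real.sqrt_sq_eq_abs, Real.norm_eq_abs])
  have hN : ∀ x, N x ^ 2 = F x := fun x => Real.sq_sqrt (hF0 x)
  refine ⟨N, fun x => ⟨?_, ?_⟩, fun i x y => ?_⟩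
  · exact Real.le_sqrt_of_sq_le (hF1 x)
  · exact Real.sqrt_le_iff.2 ⟨by positivity, by nlinarith [hF2 x, sq_nonneg ‖x‖]⟩
  · rw [hN, hN, hN]
    set m : X := (1 / 2 : ℝ) • (x + y) with hm
    have hsum : HasSum (fun i => c i * ((q i x ^ 2 + q i y ^ 2) / 2 - q i m ^ 2))
        (((∑' i, c i * q i x ^ 2) + ∑' i, c i * q i y ^ 2) / 2 - ∑' i, c i * q i m ^ 2) := by
      have := ((((hs x).hasSum.add (hs y).hasSum).div_const 2).sub (hs m).hasSum)
      have e : (fun i => c i * ((q i x ^ 2 + q i y ^ 2) / 2 - q i m ^ 2)) =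
          fun b => (c b * q b x ^ 2 + c b * q b y ^ 2) / 2 - c b * q b m ^ 2 := by
        funext i; ring
      rw [e]; exact this
    have h1 : c i * ((q i x ^ 2 + q i y ^ 2) / 2 - q i m ^ 2) ≤
        ((∑' i, c i * q i x ^ 2) + ∑' i, c i * q i y ^ 2) / 2 - ∑' i, c i * q i m ^ 2 := by
      apply le_hasSum hsum i
      intro j _
      apply mul_nonneg (hc0 j)
      have := defect_nonneg (q j) x y
      nlinarith [sq_nonneg (q j x - q j y)]
    have h2 := defect_nonneg (normSeminorm ℝ X) x y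
    simp only [coe_normSeminorm] at h2
    simp only [hF]
    nlinarith [sq_nonneg (‖x‖ - ‖y‖)]

theorem close (a b r g : ℝ) (ha : 0 ≤ a) (hb : 0 ≤ b) (hr : 0 ≤ r) (hg : 0 ≤ g)
    (h1 : (a - b) ^ 2 / 4 ≤ (a ^ 2 + b ^ 2) / 2 - r ^ 2)
    (h2 : (a ^ 2 + b ^ 2) / 2 - r ^ 2 ≤ g ^ 2) : a ≤ r + 3 * g := by
  have h3 : (a - b) ^ 2 ≤ (2 * g) ^ 2 := by nlinarith
  have h4 : a - b ≤ 2 * g := (abs_le_of_sq_le_sq' h3 (by linarith)).2
  by_contra h
  push Not at h
  have h5 : r + g < b := by linarith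
  have h6 : r + g < a := by linarith
  nlinarith [mul_nonneg hr hg]

end RN

open RN in
theorem renorm (X : Type*) [NormedAddCommGroup X] [NormedSpace ℝ X] : Renorm X := by
  intro H
  obtain ⟨e, he, he'⟩ : ∃ e : ℕ → ℝ, (∀ k, 0 < e k) ∧ ∀ r : ℝ, 0 < r → ∃ k, e k < r :=
    ⟨fun k => 1 / ((k : ℝ) + 1), fun k => by positivity, fun r hr => exists_nat_one_div_lt hr⟩
  choose q hq1 hq2 using fun (k j : ℕ) => exq (X := X) (e k) (he k) j
  obtain ⟨N, hN1, hN2⟩ := l2 (fun i => q i.unpair.1 i.unpair.2) (fun i x => hq1 _ _ x)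
  refine ⟨N, 1, 2, one_pos, two_pos, fun x => by simpa using hN1 x, fun ε hε _ => ?_⟩
  obtain ⟨k, hk⟩ := he' (ε / 12) (by positivity)
  set η : ℝ := e k with hη
  have hη0 : 0 < η := he k
  obtain ⟨n, hn⟩ := H η hη0
  obtain ⟨W, hW0, hW⟩ : ∃ W : ℝ, 0 < W ∧ ∀ j ≤ n, W ≤ 1 / 2 / 2 ^ (Nat.pair k j) := by
    obtain ⟨j0, _, hj0⟩ := Finset.exists_min_image (range (n + 1))
      (fun j => (1 / 2 / 2 ^ (Nat.pair k j) : ℝ)) ⟨0, by simp⟩
    exact ⟨_, by positivity, fun j hj => hj0 j (by simpa [Nat.lt_succ_iff] using hj)⟩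
  set σ : ℝ := 1 / (4 * ((n : ℝ) + 1)) with hσ
  have hσ0 : 0 < σ := by positivity
  have hσn : 4 * σ * (n + 1) = 1 := by rw [hσ]; field_simp
  refine ⟨W * (η * σ) ^ 2 / 2, by positivity, fun x y hx hy hxy => ?_⟩
  set m : X := (1 / 2 : ℝ) • (x + y) with hm
  have hD : W * (η * σ) ^ 2 ≤ (N x ^ 2 + N y ^ 2) / 2 - N m ^ 2 := by
    by_contra hlt
    push Not at hlt
    have hdef : ∀ j ≤ n, (q k j x ^ 2 + q k j y ^ 2) / 2 - q k j m ^ 2 ≤ (η * σ) ^ 2 := by
      intro j hj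
      have h1 := hN2 (Nat.pair k j) x y
      simp only [Nat.unpair_pair] at h1
      have h2 := defect_nonneg (q k j) x y
      have h3 : 0 ≤ (q k j x ^ 2 + q k j y ^ 2) / 2 - q k j m ^ 2 := by
        nlinarith [sq_nonneg (q k j x - q k j y)]
      have h4 := mul_le_mul_of_nonneg_right (hW j hj) h3
      exact le_of_mul_le_mul_left (by linarith) hW0
    have hxy' : ε / 2 ≤ ‖x - y‖ := by linarith [(hN1 (x - y)).2]
    have key : ∀ j ≤ n, (Der X η j).Nonempty ∧ q k j x ≤ η * (1 + 4 * σ * j) ∧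
        q k j y ≤ η * (1 + 4 * σ * j) := by
      intro j
      induction j with
      | zero =>
        intro _
        have hne : (Der X η 0).Nonempty := ⟨0, by rw [Der_zero]; simp⟩
        refine ⟨hne, ?_, ?_⟩
        · have := (hq2 k 0 hne).2 x 1 x one_pos
            (by rw [Der_zero]; simpa using (hN1 x).1.trans hx) (by simpa using hη0.le)
          simpa using this
        · have := (hq2 k 0 hne).2 y 1 y one_pos
            (by rw [Der_zero]; simpa using (hN1 y).1.trans hy) (by simpa using hη0.le)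
          simpa using this
      | succ j ih =>
        intro hj
        obtain ⟨hne, hx1, hy1⟩ := ih (by omega)
        set t : ℝ := 1 + 4 * σ * j + σ with ht
        have hj' : (j : ℝ) + 1 ≤ n := by exact_mod_cast hj
        have ht0 : 0 < t := by positivity
        have ht2 : t ≤ 2 := by nlinarith
        have hlt' : η * (1 + 4 * σ * j) < η * t := mul_lt_mul_of_pos_left (by linarith) hη0
        obtain ⟨a, ha, hxa⟩ := (hq2 k j hne).1 x t ht0 (hx1.trans_lt hlt')
        obtain ⟨b, hb, hyb⟩ := (hq2 k j hne).1 y t ht0 (hy1.trans_lt hlt')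
        have hab : η ≤ ‖a - b‖ := by
          have h1 : ‖t⁻¹ • (x - y)‖ ≤ ‖a - b‖ + ‖t⁻¹ • x - a‖ + ‖t⁻¹ • y - b‖ := by
            rw [show t⁻¹ • (x - y) = (a - b) + (t⁻¹ • x - a) - (t⁻¹ • y - b) by
              rw [smul_sub]; abel]
            exact (norm_sub_le _ _).trans (by gcongr; exact norm_add_le _ _)
          rw [norm_smul, Real.norm_eq_abs, abs_of_pos (inv_pos.2 ht0)] at h1
          have h2 : ε / 4 ≤ t⁻¹ * ‖x - y‖ := by
            rw [le_inv_mul_iff₀ ht0]; nlinarith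
          linarith
        have hmem : (1 / 2 : ℝ) • (a + b) ∈ Der X η (j + 1) := by
          rw [Der_succ]; exact subset_convexHull _ _ ⟨a, ha, b, hb, hab, rfl⟩
        have hne' : (Der X η (j + 1)).Nonempty := ⟨_, hmem⟩
        have hmq : q k (j + 1) m ≤ η * t := by
          apply (hq2 k (j + 1) hne').2 m t _ ht0 hmem
          rw [show t⁻¹ • m - (1 / 2 : ℝ) • (a + b) =
            (1 / 2 : ℝ) • ((t⁻¹ • x - a) + (t⁻¹ • y - b)) by rw [hm]; module]
          rw [norm_smul]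
          have := norm_add_le (t⁻¹ • x - a) (t⁻¹ • y - b)
          rw [show ‖(1 / 2 : ℝ)‖ = 1 / 2 by norm_num]
          linarith
        have hd := hdef (j + 1) hj
        have h2 := defect_nonneg (q k (j + 1)) x y
        have c1 := close _ _ _ (η * σ) (apply_nonneg (q k (j + 1)) x) (apply_nonneg (q k (j + 1)) y)
          (apply_nonneg (q k (j + 1)) m) (by positivity) h2 hd
        have c2 := close _ _ _ (η * σ) (apply_nonneg (q k (j + 1)) y) (apply_nonneg (q k (j + 1)) x)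
          (apply_nonneg (q k (j + 1)) m) (by positivity) (by linarith) (by linarith)
        refine ⟨hne', ?_, ?_⟩ <;> push_cast <;> nlinarith
    have := (key n le_rfl).1
    rw [hn] at this
    exact Set.not_nonempty_empty this
  have h1 : N x ^ 2 ≤ 1 := pow_le_one₀ (apply_nonneg _ _) hx
  have h2 : N y ^ 2 ≤ 1 := pow_le_one₀ (apply_nonneg _ _) hy
  have h3 : 0 ≤ N m := apply_nonneg _ _
  nlinarith [sq_nonneg (N m - 1)]

end Crest.Agent.R140
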